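import Vale.Agent.P092.H759.SpA

/-!
P092 (helper759), block [P-LAT].  Part 2: one more hyperbolic plane; the stabiliser of a vector.
-/

set_option linter.all false

open Matrix

namespace Vale.Agent.P092.H759

section plane

variable {l : Type} [Fintype l] [DecidableEq l] {R : Type} [CommRing R]

/-- the first basis vector of the new plane -/
def e0 : Option l ⊕ Option l → R := Pi.single (Sum.inl none) 1

/-- the second basis vector of the new plane -/
def f0 : Option l ⊕ Option l → R := Pi.single (Sum.inr none) 1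

/-- the old space in the new one -/
def emb (w : l ⊕ l → R) : Option l ⊕ Option l → R :=
  Sum.elim (fun i => i.elim 0 fun j => w (Sum.inl j)) (fun i => i.elim 0 fun j => w (Sum.inr j))

/-- the projection to the old space -/
def prj (y : Option l ⊕ Option l → R) : l ⊕ l → R := fun i => y (Sum.map some some i)

@[simp] theorem e0_inl : (e0 : Option l ⊕ Option l → R) (Sum.inl none) = 1 := by simp [e0]
@[simp] theorem e0_inr : (e0 : Option l ⊕ Option l → R) (Sum.inr none) = 0 := by simp [e0]
@[simp] theorem f0_inl : (f0 : Option l ⊕ Option l → R) (Sum.inl none) = 0 := by simp [f0]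
@[simp] theorem f0_inr : (f0 : Option l ⊕ Option l → R) (Sum.inr none) = 1 := by simp [f0]
@[simp] theorem emb_inl (w : l ⊕ l → R) : emb w (Sum.inl none) = 0 := rfl
@[simp] theorem emb_inr (w : l ⊕ l → R) : emb w (Sum.inr none) = 0 := rfl

@[simp] theorem prj_e0 : prj (e0 : Option l ⊕ Option l → R) = 0 := by
  funext i; rcases i with i | i <;> simp [prj, e0]

@[simp] theorem prj_f0 : prj (f0 : Option l ⊕ Option l → R) = 0 := by
  funext i; rcases i with i | i <;> simp [prj, f0]

@[simp] theorem prj_emb (w : l ⊕ l → R) : prj (emb w) = w := by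
  funext i; rcases i with i | i <;> rfl

theorem prj_add (y z : Option l ⊕ Option l → R) : prj (y + z) = prj y + prj z := rfl
theorem prj_smul (c : R) (y : Option l ⊕ Option l → R) : prj (c • y) = c • prj y := rfl

theorem emb_add (w w' : l ⊕ l → R) : emb (w + w') = emb w + emb w' := by
  funext i; rcases i with (_ | i) | (_ | i) <;> simp [emb]

theorem emb_smul (c : R) (w : l ⊕ l → R) : emb (c • w) = c • emb w := by
  funext i; rcases i with (_ | i) | (_ | i) <;> simp [emb]

@[simp] theorem emb_zero : emb (0 : l ⊕ l → R) = 0 := by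
  funext i; rcases i with (_ | i) | (_ | i) <;> simp [emb]

theorem decomp (y : Option l ⊕ Option l → R) :
    y = y (Sum.inl none) • e0 + y (Sum.inr none) • f0 + emb (prj y) := by
  funext i; rcases i with (_ | i) | (_ | i) <;> simp [emb, prj, e0, f0]

theorem vec_ext {y z : Option l ⊕ Option l → R} (h1 : y (Sum.inl none) = z (Sum.inl none))
    (h2 : y (Sum.inr none) = z (Sum.inr none)) (h3 : prj y = prj z) : y = z := by
  rw [decomp y, decomp z, h1, h2, h3]

theorem om_split (y z : Option l ⊕ Option l → R) :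
    om y z = y (Sum.inr none) * z (Sum.inl none) - y (Sum.inl none) * z (Sum.inr none) +
      om (prj y) (prj z) := by
  rw [om_eq, om_eq, Fintype.sum_option]
  rfl

@[simp] theorem om_e0 (z : Option l ⊕ Option l → R) : om e0 z = - z (Sum.inr none) :=
  om_single_inl _ _

@[simp] theorem om_f0 (z : Option l ⊕ Option l → R) : om f0 z = z (Sum.inl none) :=
  om_single_inr _ _

theorem om_emb (w : l ⊕ l → R) (z : Option l ⊕ Option l → R) : om (emb w) z = om w (prj z) := by
  rw [om_split]; simp

/-- the old group in the new one -/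
def io (S : Matrix (l ⊕ l) (l ⊕ l) R) : Matrix (Option l ⊕ Option l) (Option l ⊕ Option l) R :=
  LinearMap.toMatrix' 
    { toFun := fun y => y (Sum.inl none) • e0 + y (Sum.inr none) • f0 + emb (S *ᵥ prj y)
      map_add' := fun y z => by
        rw [prj_add, Matrix.mulVec_add, emb_add, Pi.add_apply, Pi.add_apply, add_smul, add_smul]
        abel
      map_smul' := fun c y => by
        rw [prj_smul, Matrix.mulVec_smul, emb_smul, Pi.smul_apply, Pi.smul_apply, smul_add,
          smul_add, smul_smul, smul_smul]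
        rfl }

theorem io_mulVec (S : Matrix (l ⊕ l) (l ⊕ l) R) (y : Option l ⊕ Option l → R) :
    io S *ᵥ y = y (Sum.inl none) • e0 + y (Sum.inr none) • f0 + emb (S *ᵥ prj y) := by
  unfold io
  rw [LinearMap.toMatrix'_mulVec]
  rfl

theorem io_mem {S : Matrix (l ⊕ l) (l ⊕ l) R} (hS : S ∈ symplecticGroup l R) :
    io S ∈ symplecticGroup (Option l) R := by
  refine mem_of_om fun u v => ?_
  rw [io_mulVec, io_mulVec, om_split, om_split u v]
  simp [prj_add, prj_smul, om_mulVec hS]

/-- the Heisenberg group -/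
def he (b : l ⊕ l → R) (c : R) : Matrix (Option l ⊕ Option l) (Option l ⊕ Option l) R :=
  LinearMap.toMatrix' 
    { toFun := fun y => y + y (Sum.inr none) • (c • e0 + emb b) + om (prj y) b • e0
      map_add' := fun y z => by
        rw [prj_add, om_add_left, Pi.add_apply, add_smul, add_smul]
        abel
      map_smul' := fun c' y => by
        rw [prj_smul, om_smul_left]
        funext i
        simp only [Pi.add_apply, Pi.smul_apply, smul_eq_mul, RingHom.id_apply]
        ring }

theorem he_mulVec (b : l ⊕ l → R) (c : R) (y : Option l ⊕ Option l → R) :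
    he b c *ᵥ y = y + y (Sum.inr none) • (c • e0 + emb b) + om (prj y) b • e0 := by
  unfold he
  rw [LinearMap.toMatrix'_mulVec]
  rfl

theorem he_mem (b : l ⊕ l → R) (c : R) : he b c ∈ symplecticGroup (Option l) R := by
  refine mem_of_om fun u v => ?_
  rw [he_mulVec, he_mulVec, om_split, om_split u v]
  simp only [prj_add, prj_smul, Pi.add_apply, Pi.smul_apply, e0_inl, e0_inr, emb_inl, emb_inr,
    prj_e0, prj_emb, smul_zero, smul_eq_mul, add_zero, zero_add, mul_zero, mul_one,
    om_add_left, om_add_right, om_smul_left, om_smul_right, om_self]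
  rw [om_swap b (prj v)]
  ring

/-- the old group in the new one, as group elements -/
def ioS (S : symplecticGroup l R) : symplecticGroup (Option l) R := ⟨io S.1, io_mem S.2⟩

/-- the Heisenberg group, as group elements -/
def heS (b : l ⊕ l → R) (c : R) : symplecticGroup (Option l) R := ⟨he b c, he_mem b c⟩

theorem ioS_mulVec (S : symplecticGroup l R) (y : Option l ⊕ Option l → R) :
    (ioS S).1 *ᵥ y = y (Sum.inl none) • e0 + y (Sum.inr none) • f0 + emb (S.1 *ᵥ prj y) :=
  io_mulVec _ _

theorem heS_mulVec (b : l ⊕ l → R) (c : R) (y : Option l ⊕ Option l → R) :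
    (heS b c).1 *ᵥ y = y + y (Sum.inr none) • (c • e0 + emb b) + om (prj y) b • e0 :=
  he_mulVec _ _ _

theorem ioS_mul (S T : symplecticGroup l R) : ioS (S * T) = ioS S * ioS T := by
  refine sp_ext fun y => ?_
  rw [mul_mulVec, ioS_mulVec, ioS_mulVec, ioS_mulVec]
  refine vec_ext ?_ ?_ ?_
  · simp
  · simp
  · simp [prj_add, prj_smul, mul_mulVec]

theorem ioS_one : ioS (1 : symplecticGroup l R) = 1 := by
  refine sp_ext fun y => ?_
  rw [ioS_mulVec, one_mulVec', one_mulVec', ← decomp]

theorem heS_mul (b b' : l ⊕ l → R) (c c' : R) :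
    heS b c * heS b' c' = heS (b + b') (c + c' + om b' b) := by
  refine sp_ext fun y => ?_
  rw [mul_mulVec, heS_mulVec, heS_mulVec, heS_mulVec]
  refine vec_ext ?_ ?_ ?_
  · simp only [prj_add, prj_smul, Pi.add_apply, Pi.smul_apply, e0_inl, e0_inr, emb_inl, emb_inr,
      prj_e0, prj_emb, smul_zero, smul_eq_mul, add_zero, zero_add, mul_zero, mul_one,
      om_add_left, om_add_right, om_smul_left, om_smul_right, om_self]
    ring
  · simp
  · simp [prj_add, prj_smul]
    abel

theorem heS_zero : heS (0 : l ⊕ l → R) (0 : R) = 1 := by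
  refine sp_ext fun y => ?_
  rw [heS_mulVec, one_mulVec']
  simp [om_zero_right]

theorem heS_ioS (b : l ⊕ l → R) (c : R) (S : symplecticGroup l R) :
    heS b c * ioS S = ioS S * heS ((S⁻¹).1 *ᵥ b) c := by
  refine sp_ext fun y => ?_
  rw [mul_mulVec, mul_mulVec, heS_mulVec, heS_mulVec, ioS_mulVec, ioS_mulVec]
  refine vec_ext ?_ ?_ ?_
  · simp only [prj_add, prj_smul, Pi.add_apply, Pi.smul_apply, e0_inl, e0_inr, f0_inl, f0_inr,
      emb_inl, emb_inr, prj_e0, prj_f0, prj_emb, smul_zero, smul_eq_mul, add_zero, zero_add,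
      mul_zero, mul_one, om_add_left, om_add_right, om_smul_left, om_smul_right, om_self]
    rw [← om_mulVec' S (prj y), mulVec_inv]
  · simp
  · simp [prj_add, prj_smul, Matrix.mulVec_add, Matrix.mulVec_smul]
    congr 1
    rw [← Matrix.mulVec_mulVec, mulVec_inv]

theorem heS_e0 (b : l ⊕ l → R) (c : R) : (heS b c).1 *ᵥ e0 = e0 := by
  rw [heS_mulVec]; simp [om_zero_left]

theorem ioS_e0 (S : symplecticGroup l R) : (ioS S).1 *ᵥ e0 = e0 := by
  rw [ioS_mulVec]; simp

theorem heS_f0 (b : l ⊕ l → R) (c : R) : (heS b c).1 *ᵥ f0 = f0 + c • e0 + emb b := by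
  rw [heS_mulVec]; simp [om_zero_left, add_assoc]

theorem ioS_f0 (S : symplecticGroup l R) : (ioS S).1 *ᵥ f0 = f0 := by
  rw [ioS_mulVec]; simp

/-- two symplectic matrices which agree on the plane and on the old space are equal -/
theorem sp_ext' {A B : symplecticGroup (Option l) R} (h1 : A.1 *ᵥ e0 = B.1 *ᵥ e0)
    (h2 : A.1 *ᵥ f0 = B.1 *ᵥ f0) (h3 : ∀ w, A.1 *ᵥ emb w = B.1 *ᵥ emb w) : A = B := by
  refine sp_ext fun y => ?_
  rw [decomp y, Matrix.mulVec_add, Matrix.mulVec_add, Matrix.mulVec_smul, Matrix.mulVec_smul,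
    h1, h2, h3, Matrix.mulVec_add, Matrix.mulVec_add, Matrix.mulVec_smul, Matrix.mulVec_smul]

/-- the stabiliser of `e0` -/
theorem exists_coord (h : symplecticGroup (Option l) R) (he : h.1 *ᵥ e0 = e0) :
    ∃ (S : symplecticGroup l R) (b : l ⊕ l → R) (c : R), h = ioS S * heS b c := by
  have k1 : ∀ y, (h.1 *ᵥ y) (Sum.inr none) = y (Sum.inr none) := by
    intro y
    have h1 := om_mulVec' h e0 y
    rw [he, om_e0, om_e0] at h1
    exact neg_injective h1
  -- the middle block
  let L : (l ⊕ l → R) →ₗ[R] (l ⊕ l → R) :=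
    { toFun := fun w => prj (h.1 *ᵥ emb w)
      map_add' := fun w w' => by rw [emb_add, Matrix.mulVec_add, prj_add]
      map_smul' := fun c w => by rw [emb_smul, Matrix.mulVec_smul, prj_smul]; rfl }
  have hL : ∀ w, LinearMap.toMatrix' L *ᵥ w = prj (h.1 *ᵥ emb w) := by
    intro w
    rw [LinearMap.toMatrix'_mulVec]
    rfl
  have hmem : LinearMap.toMatrix' L ∈ symplecticGroup l R := by
    refine mem_of_om fun u v => ?_
    rw [hL, hL]
    have h1 := om_mulVec' h (emb u) (emb v)
    rw [om_split, k1, k1, om_emb, prj_emb] at h1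
    simpa using h1
  obtain ⟨S, hS⟩ : ∃ S : symplecticGroup l R, ∀ w, S.1 *ᵥ w = prj (h.1 *ᵥ emb w) :=
    ⟨⟨_, hmem⟩, hL⟩
  refine ⟨S, (S⁻¹).1 *ᵥ prj (h.1 *ᵥ f0), (h.1 *ᵥ f0) (Sum.inl none), ?_⟩
  refine sp_ext' ?_ ?_ fun w => ?_
  · rw [he, mul_mulVec, heS_e0, ioS_e0]
  · rw [mul_mulVec, heS_f0, ioS_mulVec]
    refine vec_ext ?_ ?_ ?_
    · simp
    · rw [k1]; simp
    · simp only [prj_add, prj_smul, prj_e0, prj_f0, prj_emb, smul_zero, zero_add, add_zero]
      rw [mulVec_inv]
  · rw [mul_mulVec, heS_mulVec, ioS_mulVec]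
    refine vec_ext ?_ ?_ ?_
    · have h1 := om_mulVec' h (emb w) f0
      rw [om_split, k1, k1, om_emb] at h1
      simp only [emb_inr, f0_inr, zero_mul, mul_one, prj_f0, om_zero_right, zero_sub] at h1
      rw [← hS w] at h1
      have h2 : (h.1 *ᵥ emb w) (Sum.inl none) = om (S.1 *ᵥ w) (prj (h.1 *ᵥ f0)) := by
        linear_combination -h1
      rw [h2]
      simp only [prj_add, prj_smul, Pi.add_apply, Pi.smul_apply, e0_inl, e0_inr, f0_inl, f0_inr,
        emb_inl, emb_inr, prj_e0, prj_f0, prj_emb, smul_zero, smul_eq_mul, add_zero, zero_add,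
        mul_zero, mul_one, zero_smul]
      rw [← om_mulVec' S w, mulVec_inv]
    · rw [k1]; simp
    · simp [prj_add, prj_smul, hS]

theorem coord_inj {S S' : symplecticGroup l R} {b b' : l ⊕ l → R} {c c' : R}
    (h : ioS S * heS b c = ioS S' * heS b' c') : S = S' ∧ b = b' ∧ c = c' := by
  have h1 : S = S' := by
    refine sp_ext fun w => ?_
    have h2 := congrArg (fun A : symplecticGroup (Option l) R => prj (A.1 *ᵥ emb w)) h
    simp only [mul_mulVec, heS_mulVec, ioS_mulVec] at h2
    simpa [prj_add, prj_smul] using h2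
  subst h1
  have h3 := mul_left_cancel h
  have h4 := congrArg (fun A : symplecticGroup (Option l) R => A.1 *ᵥ f0) h3
  simp only [heS_f0] at h4
  refine ⟨rfl, ?_, ?_⟩
  · have h5 := congrArg prj h4
    simpa [prj_add, prj_smul] using h5
  · have h5 := congrFun h4 (Sum.inl none)
    simpa using h5

/-- left multiplication in the coordinates of the stabiliser -/
theorem coord_mul (S₀ S : symplecticGroup l R) (b₀ b : l ⊕ l → R) (c₀ c : R) :
    (ioS S₀ * heS b₀ c₀) * (ioS S * heS b c) =
      ioS (S₀ * S) * heS ((S⁻¹).1 *ᵥ b₀ + b) (c₀ + c + om b ((S⁻¹).1 *ᵥ b₀)) := by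
  rw [mul_assoc, ← mul_assoc (heS b₀ c₀), heS_ioS, mul_assoc, heS_mul, ← mul_assoc, ← ioS_mul]

end plane

section map

variable {l : Type} [Fintype l] [DecidableEq l] {R S : Type} [CommRing R] [CommRing S]
  (f : R →+* S)

theorem map_e0 : (fun i => f ((e0 : Option l ⊕ Option l → R) i)) = e0 := by
  funext i; rcases i with (_ | i) | (_ | i) <;> simp [e0]

theorem map_f0 : (fun i => f ((f0 : Option l ⊕ Option l → R) i)) = f0 := by
  funext i; rcases i with (_ | i) | (_ | i) <;> simp [f0]

theorem map_emb (w : l ⊕ l → R) : (fun i => f (emb w i)) = emb (fun i => f (w i)) := by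
  funext i; rcases i with (_ | i) | (_ | i) <;> simp [emb]

/-- two symplectic matrices over the bigger ring which agree on the images -/
theorem mp_eq_of {m : Type} [Fintype m] [DecidableEq m] {A : symplecticGroup m R}
    {B : symplecticGroup m S} (h : ∀ y : m ⊕ m → R,
      B.1 *ᵥ (fun i => f (y i)) = fun i => f ((A.1 *ᵥ y) i)) : mp f A = B := by
  refine Subtype.ext (Matrix.ext_of_mulVec_single fun i => ?_)
  have h1 : (Pi.single i 1 : m ⊕ m → S) = fun j => f ((Pi.single i 1 : m ⊕ m → R) j) := by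
    funext j
    by_cases hj : j = i
    · subst hj; simp
    · simp [hj]
  rw [h1, h, mp_mulVec]

theorem map_prj (y : Option l ⊕ Option l → R) :
    prj (fun i => f (y i)) = fun i => f (prj y i) := rfl

theorem mp_ioS (A : symplecticGroup l R) : mp f (ioS A) = ioS (mp f A) := by
  refine mp_eq_of f fun y => ?_
  rw [ioS_mulVec, ioS_mulVec, map_prj, mp_mulVec, ← map_e0 f, ← map_f0 f, ← map_emb]
  funext i
  simp

theorem mp_heS (b : l ⊕ l → R) (c : R) : mp f (heS b c) = heS (fun i => f (b i)) (f c) := by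
  refine mp_eq_of f fun y => ?_
  rw [heS_mulVec, heS_mulVec, map_prj, map_om, ← map_e0 f, ← map_emb]
  funext i
  simp

theorem mp_tS {m : Type} [Fintype m] [DecidableEq m] (v : m ⊕ m → R) (c : R) :
    mp f (tS v c) = tS (fun i => f (v i)) (f c) := by
  refine mp_eq_of f fun y => ?_
  rw [tS_mulVec, tS_mulVec, map_om]
  funext i
  simp

end map

end Vale.Agent.P092.H759
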