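import Vale.Agent.P092.H759.SpF

/-!
P092 (helper759), block [P-LAT].  Part 7: `Sp_{2n}(ℤ)` is a lattice of `Sp_{2n}(ℝ)`, for every `n`.
-/

set_option linter.all false

open Matrix MeasureTheory MeasureTheory.Measure Set Filter Topology

namespace Vale.Agent.P092.H759

section rx

variable {l m : Type} [Fintype l] [DecidableEq l] [Fintype m] [DecidableEq m] {R : Type}
  [CommRing R]

theorem J_submatrix (e : l ≃ m) :
    (J m R).submatrix (Equiv.sumCongr e e) (Equiv.sumCongr e e) = J l R := by
  ext i j
  rcases i with i | i <;> rcases j with j | j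
  · simp [J]
  · simp [J, Matrix.one_apply]
  · simp [J, Matrix.one_apply]
  · simp [J]

/-- symplectic matrices do not depend on the names of the indices -/
def rx (e : l ≃ m) : symplecticGroup m R →* symplecticGroup l R where
  toFun A := ⟨A.1.submatrix (Equiv.sumCongr e e) (Equiv.sumCongr e e), by
    have h := SymplecticGroup.mem_iff.1 A.2
    rw [SymplecticGroup.mem_iff, ← J_submatrix e, Matrix.transpose_submatrix,
      Matrix.submatrix_mul_equiv, Matrix.submatrix_mul_equiv, h]⟩
  map_one' := by
    apply Subtype.ext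
    exact Matrix.submatrix_one_equiv _
  map_mul' A B := by
    apply Subtype.ext
    exact (Matrix.submatrix_mul_equiv A.1 B.1 _ _ _).symm

theorem rx_rx (e : l ≃ m) (A : symplecticGroup m R) : rx e.symm (rx e A) = A := by
  apply Subtype.ext
  ext i j
  rcases i with i | i <;> rcases j with j | j <;> simp [rx]

/-- symplectic matrices do not depend on the names of the indices -/
def rxE (e : l ≃ m) : symplecticGroup m R ≃* symplecticGroup l R where
  toFun := rx e
  invFun := rx e.symm
  left_inv := rx_rx e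
  right_inv := rx_rx e.symm
  map_mul' := map_mul _

theorem cont_rx (e : l ≃ m) : Continuous (rx e : symplecticGroup m ℝ →* symplecticGroup l ℝ) := by
  refine cont_sp ?_
  exact Continuous.matrix_submatrix continuous_subtype_val _ _

theorem rx_mp (e : l ≃ m) (A : symplecticGroup m ℤ) :
    rx e (mp (Int.castRingHom ℝ) A) = mp (Int.castRingHom ℝ) (rx e A) := by
  apply Subtype.ext
  rfl

theorem rx_spZ (e : l ≃ m) :
    (spZ m).map (rxE (R := ℝ) e : symplecticGroup m ℝ →* symplecticGroup l ℝ) = spZ l := by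
  ext A
  constructor
  · rintro ⟨_, ⟨B, rfl⟩, rfl⟩
    exact ⟨rx e B, (rx_mp e B).symm⟩
  · rintro ⟨B, rfl⟩
    refine ⟨mp (Int.castRingHom ℝ) (rx e.symm B), ⟨_, rfl⟩, ?_⟩
    show rx e (mp (Int.castRingHom ℝ) (rx e.symm B)) = _
    rw [rx_mp]
    congr 1
    exact rx_rx e.symm B

end rx

/-- no homomorphism to a commutative group, and `Sp_{2n}(ℤ)` is a lattice -/
theorem main_induction (l : Type) [hF : Fintype l] [hD : DecidableEq l] :
    (∀ f : symplecticGroup l ℝ →* (NNReal)ˣ, f = 1) ∧ H515.IsLattice (spZ l) := by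
  classical
  suffices h : ∀ n : ℕ, (∀ f : symplecticGroup (Fin n) ℝ →* (NNReal)ˣ, f = 1) ∧
      H515.IsLattice (spZ (Fin n)) by
    obtain ⟨h1, h2⟩ := h (Fintype.card l)
    have e : l ≃ Fin (Fintype.card l) := Fintype.equivFin l
    refine ⟨fun f => ?_, ?_⟩
    · have h3 := h1 (f.comp (rx e))
      ext A
      have h4 := DFunLike.congr_fun h3 (rx e.symm A)
      rw [MonoidHom.comp_apply] at h4
      have h5 : rx e (rx e.symm A) = A := rx_rx e.symm A
      rw [h5] at h4
      rw [h4]
      rfl
    · have h3 := h2.map_equiv (rxE e) (cont_rx e) (cont_rx e.symm)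
      rwa [rx_spZ] at h3
  intro n
  induction n with
  | zero => exact ⟨fun f => hom_triv_empty f, isLattice_empty⟩
  | succ n ih =>
    obtain ⟨h1, h2⟩ := ih
    have h3 : ∀ f : symplecticGroup (Option (Fin n)) ℝ →* (NNReal)ˣ, f = 1 :=
      fun f => hom_triv_step f h1
    have h4 : H515.IsLattice (spZ (Option (Fin n))) := isLattice_step h3 h2
    have e : Fin (n + 1) ≃ Option (Fin n) := finSuccEquiv n
    refine ⟨fun f => ?_, ?_⟩
    · have h5 := h3 (f.comp (rx e))
      ext A
      have h6 := DFunLike.congr_fun h5 (rx e.symm A)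
      rw [MonoidHom.comp_apply] at h6
      have h7 : rx e (rx e.symm A) = A := rx_rx e.symm A
      rw [h7] at h6
      rw [h6]
      rfl
    · have h5 := h4.map_equiv (rxE e) (cont_rx e) (cont_rx e.symm)
      rwa [rx_spZ] at h5

/-- **`Sp_{2n}(ℤ)` is a lattice of `Sp_{2n}(ℝ)`.** -/
theorem isLattice_spZ (l : Type) [Fintype l] [DecidableEq l] : H515.IsLattice (spZ l) :=
  (main_induction l).2

end Vale.Agent.P092.H759
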