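import Mathlib

/-!
P092 (helper759), block [P-LAT]: `Sp_{2n}(ℤ)` is a lattice in `Sp_{2n}(ℝ)`.  Part 1: the symplectic
form, transvections, over any commutative ring.
-/

set_option linter.all false

open Matrix

namespace Vale.Agent.P092.H759

section form

variable {l : Type} [Fintype l] [DecidableEq l] {R : Type} [CommRing R]

/-- the symplectic form -/
def om (u v : l ⊕ l → R) : R := u ⬝ᵥ (J l R *ᵥ v)

theorem om_eq (u v : l ⊕ l → R) :
    om u v = ∑ i, (u (Sum.inr i) * v (Sum.inl i) - u (Sum.inl i) * v (Sum.inr i)) := by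
  unfold om
  rw [J, ← Sum.elim_comp_inl_inr v, Matrix.fromBlocks_mulVec]
  simp only [dotProduct, Fintype.sum_sum_type, Sum.elim_inl, Sum.elim_inr, Matrix.zero_mulVec,
    Matrix.one_mulVec, Matrix.neg_mulVec, zero_add, add_zero, Pi.neg_apply, Function.comp_apply,
    Sum.elim_comp_inl, Sum.elim_comp_inr]
  rw [← Finset.sum_add_distrib]
  refine Finset.sum_congr rfl fun i _ => ?_
  ring

theorem om_add_left (u u' v : l ⊕ l → R) : om (u + u') v = om u v + om u' v := by
  unfold om; rw [add_dotProduct]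

theorem om_add_right (u v v' : l ⊕ l → R) : om u (v + v') = om u v + om u v' := by
  unfold om; rw [Matrix.mulVec_add, dotProduct_add]

theorem om_smul_left (c : R) (u v : l ⊕ l → R) : om (c • u) v = c * om u v := by
  unfold om; rw [smul_dotProduct, smul_eq_mul]

theorem om_smul_right (c : R) (u v : l ⊕ l → R) : om u (c • v) = c * om u v := by
  unfold om; rw [Matrix.mulVec_smul, dotProduct_smul, smul_eq_mul]

theorem om_neg_left (u v : l ⊕ l → R) : om (-u) v = - om u v := by
  unfold om; rw [neg_dotProduct]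

theorem om_neg_right (u v : l ⊕ l → R) : om u (-v) = - om u v := by
  unfold om; rw [Matrix.mulVec_neg, dotProduct_neg]

theorem om_sub_left (u u' v : l ⊕ l → R) : om (u - u') v = om u v - om u' v := by
  rw [sub_eq_add_neg, om_add_left, om_neg_left, ← sub_eq_add_neg]

theorem om_sub_right (u v v' : l ⊕ l → R) : om u (v - v') = om u v - om u v' := by
  rw [sub_eq_add_neg, om_add_right, om_neg_right, ← sub_eq_add_neg]

theorem om_swap (u v : l ⊕ l → R) : om u v = - om v u := by
  rw [om_eq, om_eq, ← Finset.sum_neg_distrib]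
  refine Finset.sum_congr rfl fun i _ => ?_
  ring

theorem om_self (u : l ⊕ l → R) : om u u = 0 := by
  rw [om_eq]
  refine Finset.sum_eq_zero fun i _ => ?_
  ring

theorem om_zero_right (u : l ⊕ l → R) : om u 0 = 0 := by unfold om; simp

theorem om_zero_left (u : l ⊕ l → R) : om 0 u = 0 := by unfold om; simp

theorem om_single_inr (i : l) (v : l ⊕ l → R) : om (Pi.single (Sum.inr i) 1) v = v (Sum.inl i) := by
  rw [om_eq, Finset.sum_eq_single i]
  · simp
  · intro j _ hj
    simp [hj]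
  · simp

theorem om_single_inl (i : l) (v : l ⊕ l → R) :
    om (Pi.single (Sum.inl i) 1) v = - v (Sum.inr i) := by
  rw [om_eq, Finset.sum_eq_single i]
  · simp
  · intro j _ hj
    simp [hj]
  · simp

theorem mulVec_dot (A : Matrix (l ⊕ l) (l ⊕ l) R) (u w : l ⊕ l → R) :
    (A *ᵥ u) ⬝ᵥ w = u ⬝ᵥ (Aᵀ *ᵥ w) := by
  rw [← Matrix.vecMul_transpose, Matrix.dotProduct_mulVec]

theorem om_mul_eq (A : Matrix (l ⊕ l) (l ⊕ l) R) (u v : l ⊕ l → R) :
    om (A *ᵥ u) (A *ᵥ v) = u ⬝ᵥ ((Aᵀ * J l R * A) *ᵥ v) := by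
  unfold om
  rw [mulVec_dot, Matrix.mulVec_mulVec, Matrix.mulVec_mulVec, Matrix.mul_assoc]

/-- a form preserving matrix is symplectic -/
theorem mem_of_om {A : Matrix (l ⊕ l) (l ⊕ l) R}
    (h : ∀ u v, om (A *ᵥ u) (A *ᵥ v) = om u v) : A ∈ symplecticGroup l R := by
  rw [SymplecticGroup.mem_iff']
  ext i j
  have h1 := h (Pi.single i 1) (Pi.single j 1)
  rw [om_mul_eq] at h1
  unfold om at h1
  simpa using h1

theorem om_mulVec {A : Matrix (l ⊕ l) (l ⊕ l) R} (hA : A ∈ symplecticGroup l R)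
    (u v : l ⊕ l → R) : om (A *ᵥ u) (A *ᵥ v) = om u v := by
  rw [om_mul_eq, SymplecticGroup.mem_iff'.1 hA]
  rfl

/-! ### Transvections -/

/-- the transvection `y ↦ y + c ω(v, y) v` -/
def tv (v : l ⊕ l → R) (c : R) : Matrix (l ⊕ l) (l ⊕ l) R :=
  1 + c • vecMulVec v (v ᵥ* J l R)

theorem tv_mulVec (v : l ⊕ l → R) (c : R) (y : l ⊕ l → R) :
    tv v c *ᵥ y = y + (c * om v y) • v := by
  unfold tv om
  rw [Matrix.add_mulVec, Matrix.one_mulVec, Matrix.smul_mulVec, Matrix.vecMulVec_mulVec,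
    Matrix.dotProduct_mulVec]
  congr 1
  funext i
  simp only [Pi.smul_apply, smul_eq_mul, MulOpposite.smul_eq_mul_unop, MulOpposite.unop_op]
  ring

theorem tv_mem (v : l ⊕ l → R) (c : R) : tv v c ∈ symplecticGroup l R := by
  refine mem_of_om fun u w => ?_
  rw [tv_mulVec, tv_mulVec]
  simp only [om_add_left, om_add_right, om_smul_left, om_smul_right, om_self]
  rw [om_swap u v]
  ring

/-- equality of symplectic matrices can be tested on vectors -/
theorem sp_ext {A B : symplecticGroup l R} (h : ∀ y : l ⊕ l → R, A.1 *ᵥ y = B.1 *ᵥ y) : A = B :=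
  Subtype.ext (Matrix.ext_of_mulVec_single fun i => h _)

/-- the transvection as a group element -/
def tS (v : l ⊕ l → R) (c : R) : symplecticGroup l R := ⟨tv v c, tv_mem v c⟩

theorem tS_mulVec (v : l ⊕ l → R) (c : R) (y : l ⊕ l → R) :
    (tS v c).1 *ᵥ y = y + (c * om v y) • v := tv_mulVec v c y

theorem mul_mulVec (A B : symplecticGroup l R) (y : l ⊕ l → R) :
    (A * B).1 *ᵥ y = A.1 *ᵥ (B.1 *ᵥ y) := by
  rw [Matrix.mulVec_mulVec]; rfl

theorem one_mulVec' (y : l ⊕ l → R) : (1 : symplecticGroup l R).1 *ᵥ y = y :=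
  Matrix.one_mulVec y

theorem inv_mulVec (A : symplecticGroup l R) (y : l ⊕ l → R) :
    (A⁻¹).1 *ᵥ (A.1 *ᵥ y) = y := by
  rw [← mul_mulVec, inv_mul_cancel, one_mulVec']

theorem mulVec_inv (A : symplecticGroup l R) (y : l ⊕ l → R) :
    A.1 *ᵥ ((A⁻¹).1 *ᵥ y) = y := by
  rw [← mul_mulVec, mul_inv_cancel, one_mulVec']

theorem om_mulVec' (A : symplecticGroup l R) (u v : l ⊕ l → R) :
    om (A.1 *ᵥ u) (A.1 *ᵥ v) = om u v := om_mulVec A.2 u v

theorem tS_add (v : l ⊕ l → R) (c c' : R) : tS v c * tS v c' = tS v (c + c') := by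
  refine sp_ext fun y => ?_
  rw [mul_mulVec, tS_mulVec, tS_mulVec, tS_mulVec, om_add_right, om_smul_right, om_self]
  rw [mul_zero, add_zero, add_mul, add_smul]
  abel

theorem tS_conj (A : symplecticGroup l R) (v : l ⊕ l → R) (c : R) :
    A * tS v c * A⁻¹ = tS (A.1 *ᵥ v) c := by
  refine sp_ext fun y => ?_
  rw [mul_mulVec, mul_mulVec, tS_mulVec, tS_mulVec, Matrix.mulVec_add, mulVec_inv,
    Matrix.mulVec_smul]
  congr 3
  rw [← om_mulVec' A, mulVec_inv]

theorem tS_smul (a : R) (v : l ⊕ l → R) (c : R) : tS (a • v) c = tS v (a * a * c) := by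
  refine sp_ext fun y => ?_
  rw [tS_mulVec, tS_mulVec, om_smul_left, smul_smul]
  congr 2
  ring

/-- a transvection moves `z` to `y` if `ω(y, z)` is a unit -/
theorem tS_trans {y z : l ⊕ l → R} {c : R} (h : c * om y z = 1) :
    (tS (y - z) c).1 *ᵥ z = y := by
  rw [tS_mulVec, om_sub_left, om_self, sub_zero, h, one_smul]
  abel

/-- the map induced by a homomorphism of rings -/
def mp {S : Type} [CommRing S] (f : R →+* S) : symplecticGroup l R →* symplecticGroup l S where
  toFun A := ⟨A.1.map f, SymplecticGroup.map_mem A.2 f⟩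
  map_one' := by
    apply Subtype.ext
    exact Matrix.map_one f (map_zero f) (map_one f)
  map_mul' A B := by
    apply Subtype.ext
    exact Matrix.map_mul

theorem mp_mulVec {S : Type} [CommRing S] (f : R →+* S) (A : symplecticGroup l R)
    (y : l ⊕ l → R) : (mp f A).1 *ᵥ (fun i => f (y i)) = fun i => f ((A.1 *ᵥ y) i) := by
  funext i
  exact (RingHom.map_mulVec f A.1 y i).symm

theorem map_om {S : Type} [CommRing S] (f : R →+* S) (u v : l ⊕ l → R) :
    om (fun i => f (u i)) (fun i => f (v i)) = f (om u v) := by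
  rw [om_eq, om_eq, map_sum]
  simp

end form

end Vale.Agent.P092.H759
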