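import Vale.Agent.P092.H759.SpB

/-!
P092 (helper759), block [P-LAT].  Part 3: `Sp_{2n}(ℤ)` is transitive on primitive vectors.
-/

set_option linter.all false

open Matrix

namespace Vale.Agent.P092.H759

section orb

variable {l : Type} [Fintype l] [DecidableEq l]

/-- the orbit of the first basis vector under the integral symplectic group -/
def Orb (u : Option l ⊕ Option l → ℤ) : Prop :=
  ∃ γ : symplecticGroup (Option l) ℤ, γ.1 *ᵥ e0 = u

theorem Orb.mul {u : Option l ⊕ Option l → ℤ} (h : Orb u) (g : symplecticGroup (Option l) ℤ) :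
    Orb (g.1 *ᵥ u) := by
  obtain ⟨γ, rfl⟩ := h
  exact ⟨g * γ, mul_mulVec _ _ _⟩

theorem Orb.edge {y z : Option l ⊕ Option l → ℤ} (hz : Orb z) (h : om y z = 1 ∨ om y z = -1) :
    Orb y := by
  have h1 : (om y z) * om y z = 1 := by rcases h with h | h <;> rw [h] <;> norm_num
  rw [← tS_trans h1]
  exact hz.mul _

theorem orb_e0 : Orb (e0 : Option l ⊕ Option l → ℤ) := ⟨1, one_mulVec' _⟩

theorem orb_f0 : Orb (f0 : Option l ⊕ Option l → ℤ) := by
  refine orb_e0.edge (Or.inl ?_)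
  simp

theorem orb_inl (i : l) : Orb (Pi.single (Sum.inl (some i)) 1 : Option l ⊕ Option l → ℤ) := by
  have h1 : Orb (f0 + Pi.single (Sum.inr (some i)) 1 : Option l ⊕ Option l → ℤ) := by
    refine orb_e0.edge (Or.inl ?_)
    rw [om_add_left, om_f0, om_single_inr]
    simp [e0]
  refine h1.edge (Or.inr ?_)
  rw [om_add_right, om_single_inl, om_single_inl]
  simp [f0]

theorem orb_inr (i : l) : Orb (Pi.single (Sum.inr (some i)) 1 : Option l ⊕ Option l → ℤ) := by
  have h1 : Orb (f0 + Pi.single (Sum.inl (some i)) 1 : Option l ⊕ Option l → ℤ) := by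
    refine orb_e0.edge (Or.inl ?_)
    rw [om_add_left, om_f0, om_single_inl]
    simp [e0]
  refine h1.edge (Or.inl ?_)
  rw [om_add_right, om_single_inr, om_single_inr]
  simp [f0]

theorem orb_red (k : Option l ⊕ Option l) (hk : k ≠ Sum.inr none) (q : ℤ) :
    Orb (Pi.single k 1 - q • f0 : Option l ⊕ Option l → ℤ) := by
  rcases k with (_ | i) | (_ | i)
  · refine orb_f0.edge (Or.inr ?_)
    rw [om_sub_left, om_smul_left, om_self, om_single_inl]
    simp
  · refine (orb_inr i).edge (Or.inr ?_)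
    rw [om_sub_left, om_smul_left, om_f0, om_single_inl]
    simp
  · exact absurd rfl hk
  · refine (orb_inl i).edge (Or.inl ?_)
    rw [om_sub_left, om_smul_left, om_f0, om_single_inr]
    simp

/-- every nonzero integral vector is a multiple of a vector of the orbit -/
theorem exists_orb {v : Option l ⊕ Option l → ℤ} (hv : v ≠ 0) :
    ∃ (a : ℤ) (u : Option l ⊕ Option l → ℤ), a ≠ 0 ∧ Orb u ∧ v = a • u := by
  classical
  have hex : ∃ n : ℕ, 0 < n ∧ ∃ u, Orb u ∧ (om u v).natAbs = n := by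
    obtain ⟨k, hk⟩ := Function.ne_iff.1 hv
    rw [Pi.zero_apply] at hk
    rcases k with (_ | i) | (_ | i)
    · refine ⟨_, Int.natAbs_pos.2 hk, f0, orb_f0, ?_⟩
      rw [om_f0]
    · refine ⟨_, Int.natAbs_pos.2 hk, _, orb_inr i, ?_⟩
      rw [om_single_inr]
    · refine ⟨_, Int.natAbs_pos.2 hk, e0, orb_e0, ?_⟩
      rw [om_e0, Int.natAbs_neg]
    · refine ⟨_, Int.natAbs_pos.2 hk, _, orb_inl i, ?_⟩
      rw [om_single_inl, Int.natAbs_neg]
  obtain ⟨hpos, u₀, hu₀, ha⟩ := Nat.find_spec hex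
  have hmin := fun m (hm : m < Nat.find hex) => Nat.find_min hex hm
  obtain ⟨γ, hγ⟩ : ∃ γ : symplecticGroup (Option l) ℤ, γ.1 *ᵥ f0 = u₀ := by
    obtain ⟨γ, rfl⟩ := hu₀
    obtain ⟨δ, hδ⟩ := orb_f0 (l := l)
    refine ⟨γ * δ⁻¹, ?_⟩
    rw [mul_mulVec, ← hδ, inv_mulVec]
  obtain ⟨w, hw⟩ : ∃ w, w = (γ⁻¹).1 *ᵥ v := ⟨_, rfl⟩
  have hvw : v = γ.1 *ᵥ w := by rw [hw, mulVec_inv]
  obtain ⟨s, hs⟩ : ∃ s, s = om f0 w := ⟨_, rfl⟩
  have hsa : s.natAbs = Nat.find hex := by
    rw [hs, ← ha, hvw, ← hγ, om_mulVec']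
  have hs0 : s ≠ 0 := by
    rw [← Int.natAbs_pos, hsa]; exact hpos
  have hdiv : ∀ k, k ≠ Sum.inr none → s ∣ om (Pi.single k 1) w := by
    intro k hk
    by_contra hnd
    have h1 : om (Pi.single k 1 - (om (Pi.single k 1) w / s) • f0) w =
        om (Pi.single k 1) w % s := by
      rw [om_sub_left, om_smul_left, ← hs, Int.emod_def]
      ring
    have h2 : om (Pi.single k 1) w % s ≠ 0 := fun h => hnd (Int.dvd_of_emod_eq_zero h)
    have h3 : (om (Pi.single k 1) w % s).natAbs < s.natAbs := by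
      have h4 := Int.emod_nonneg (om (Pi.single k 1) w) hs0
      have h5 := Int.emod_lt_abs (om (Pi.single k 1) w) hs0
      rw [Int.abs_eq_natAbs] at h5
      omega
    rw [hsa] at h3
    refine hmin _ h3 ⟨Int.natAbs_pos.2 h2, _, (orb_red k hk (om (Pi.single k 1) w / s)).mul γ, ?_⟩
    rw [hvw, om_mulVec', h1]
  have hall : ∀ j, s ∣ w j := by
    intro j
    rcases j with (_ | i) | (_ | i)
    · rw [hs, om_f0]
    · have := hdiv (Sum.inr (some i)) (by simp)
      rwa [om_single_inr] at this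
    · have := hdiv (Sum.inl none) (by simp)
      rwa [om_single_inl, dvd_neg] at this
    · have := hdiv (Sum.inl (some i)) (by simp)
      rwa [om_single_inl, dvd_neg] at this
  choose w' hw' using hall
  have hww : w = s • w' := by
    funext j; rw [hw' j]; rfl
  have h6 : om f0 w' = 1 := by
    have h7 : s * om f0 w' = s * 1 := by rw [← om_smul_right, ← hww, mul_one, ← hs]
    exact mul_left_cancel₀ hs0 h7
  have h8 : Orb w' := orb_f0.edge (Or.inr (by rw [om_swap, h6]))
  refine ⟨s, γ.1 *ᵥ w', hs0, h8.mul γ, ?_⟩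
  rw [hvw, hww, Matrix.mulVec_smul]

end orb

end Vale.Agent.P092.H759
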