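import Vale.Agent.P092.H759.SpC
import Vale.Agent.P092.H515.LatSl

/-!
P092 (helper759), block [P-LAT].  Part 4: the topological group `Sp_{2n}(ℝ)` and its discrete
subgroup `Sp_{2n}(ℤ)`.
-/

set_option linter.all false

open Matrix MeasureTheory MeasureTheory.Measure Set Filter Topology

namespace Vale.Agent.P092.H759

section top

variable {l : Type} [Fintype l] [DecidableEq l]

instance lc_mat (m : Type) [Fintype m] : LocallyCompactSpace (Matrix m m ℝ) :=
  inferInstanceAs (LocallyCompactSpace (m → m → ℝ))

instance sc_mat (m : Type) [Fintype m] : SecondCountableTopology (Matrix m m ℝ) :=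
  inferInstanceAs (SecondCountableTopology (m → m → ℝ))

instance pol_mat (m : Type) [Fintype m] : PolishSpace (Matrix m m ℝ) :=
  inferInstanceAs (PolishSpace (m → m → ℝ))

theorem isClosed_sp : IsClosed (symplecticGroup l ℝ : Set (Matrix (l ⊕ l) (l ⊕ l) ℝ)) := by
  have h : (symplecticGroup l ℝ : Set (Matrix (l ⊕ l) (l ⊕ l) ℝ)) =
      {A | A * J l ℝ * Aᵀ = J l ℝ} := by
    ext A; exact SymplecticGroup.mem_iff
  rw [h]
  exact isClosed_eq (by fun_prop) continuous_const

instance : IsTopologicalGroup (symplecticGroup l ℝ) where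
  continuous_mul := by
    refine Continuous.subtype_mk ?_ _
    exact (continuous_subtype_val.comp continuous_fst).mul (continuous_subtype_val.comp continuous_snd)
  continuous_inv := by
    refine continuous_induced_rng.2 ?_
    have : (Subtype.val ∘ fun A : symplecticGroup l ℝ => A⁻¹) =
        fun A : symplecticGroup l ℝ => (-J l ℝ) * (A.1)ᵀ * J l ℝ := by
      funext A; exact SymplecticGroup.coe_inv A
    rw [this]
    fun_prop

instance : LocallyCompactSpace (symplecticGroup l ℝ) :=
  isClosed_sp.isClosedEmbedding_subtypeVal.locallyCompactSpace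

instance : SecondCountableTopology (symplecticGroup l ℝ) :=
  TopologicalSpace.Subtype.secondCountableTopology _

instance : T2Space (symplecticGroup l ℝ) :=
  inferInstanceAs (T2Space {A : Matrix (l ⊕ l) (l ⊕ l) ℝ // A ∈ symplecticGroup l ℝ})

instance : PolishSpace (symplecticGroup l ℝ) := isClosed_sp.polishSpace

theorem cont_sp {X : Type} [TopologicalSpace X] {f : X → symplecticGroup l ℝ}
    (h : Continuous fun x => (f x).1) : Continuous f := continuous_induced_rng.2 h

/-- a map to `Sp` is continuous if all the images of vectors are -/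
theorem cont_sp' {X : Type} [TopologicalSpace X] {f : X → symplecticGroup l ℝ}
    (h : ∀ y : l ⊕ l → ℝ, Continuous fun x => (f x).1 *ᵥ y) : Continuous f := by
  refine cont_sp (continuous_matrix fun i j => ?_)
  have h1 : (fun x => (f x).1 i j) = fun x => ((f x).1 *ᵥ Pi.single j 1) i := by
    funext x; rw [Matrix.mulVec_single_one]; rfl
  rw [h1]
  exact (continuous_apply i).comp (h _)

theorem cont_mulVec : Continuous fun p : symplecticGroup l ℝ × (l ⊕ l → ℝ) => p.1.1 *ᵥ p.2 := by
  refine Continuous.matrix_mulVec (continuous_subtype_val.comp continuous_fst) continuous_snd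

theorem cont_om : Continuous fun p : (l ⊕ l → ℝ) × (l ⊕ l → ℝ) => om p.1 p.2 := by
  unfold om
  refine Continuous.dotProduct continuous_fst (Continuous.matrix_mulVec continuous_const continuous_snd)

theorem cont_tS : Continuous fun p : (l ⊕ l → ℝ) × ℝ => tS p.1 p.2 := by
  refine cont_sp' fun y => ?_
  simp only [tS_mulVec]
  have h : Continuous fun p : (l ⊕ l → ℝ) × ℝ => om p.1 y :=
    cont_om.comp (continuous_fst.prodMk continuous_const)
  exact continuous_const.add ((continuous_snd.mul h).smul continuous_fst)

theorem cont_prj : Continuous (prj : (Option l ⊕ Option l → ℝ) → (l ⊕ l → ℝ)) :=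
  continuous_pi fun i => continuous_apply _

theorem cont_emb : Continuous (emb : (l ⊕ l → ℝ) → (Option l ⊕ Option l → ℝ)) := by
  refine continuous_pi fun i => ?_
  rcases i with (_ | i) | (_ | i)
  · exact continuous_const
  · exact continuous_apply _
  · exact continuous_const
  · exact continuous_apply _

theorem cont_ioS : Continuous (ioS : symplecticGroup l ℝ → symplecticGroup (Option l) ℝ) := by
  refine cont_sp' fun y => ?_
  simp only [ioS_mulVec]
  have h : Continuous fun S : symplecticGroup l ℝ => S.1 *ᵥ prj y :=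
    Continuous.matrix_mulVec continuous_subtype_val continuous_const
  exact continuous_const.add (cont_emb.comp h)

theorem cont_heS : Continuous fun p : (l ⊕ l → ℝ) × ℝ => heS p.1 p.2 := by
  refine cont_sp' fun y => ?_
  simp only [heS_mulVec]
  have h : Continuous fun p : (l ⊕ l → ℝ) × ℝ => om (prj y) p.1 :=
    cont_om.comp (Continuous.prodMk continuous_const continuous_fst)
  have h2 : Continuous fun p : (l ⊕ l → ℝ) × ℝ =>
      p.2 • (e0 : Option l ⊕ Option l → ℝ) + emb p.1 :=
    (continuous_snd.smul continuous_const).add (cont_emb.comp continuous_fst)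
  have h3 : Continuous fun p : (l ⊕ l → ℝ) × ℝ =>
      y (Sum.inr none) • (p.2 • (e0 : Option l ⊕ Option l → ℝ) + emb p.1) :=
    h2.const_smul (y (Sum.inr none))
  have h4 : Continuous fun p : (l ⊕ l → ℝ) × ℝ =>
      om (prj y) p.1 • (e0 : Option l ⊕ Option l → ℝ) := h.smul continuous_const
  exact (continuous_const.add h3).add h4

/-- `Sp_{2n}(ℤ)` in `Sp_{2n}(ℝ)` -/
def spZ (l : Type) [Fintype l] [DecidableEq l] : Subgroup (symplecticGroup l ℝ) :=
  (mp (l := l) (Int.castRingHom ℝ)).range

theorem disc_spZ : DiscreteTopology (spZ l) := by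
  have h1 : DiscreteTopology (symplecticGroup l ℤ) := inferInstance
  have h2 : ∀ A : spZ l, ∃ B : symplecticGroup l ℤ, mp (Int.castRingHom ℝ) B = A.1 := fun A => A.2
  choose φ hφ using h2
  have hent : ∀ (A : spZ l) i j, A.1.1 i j = (((φ A).1 i j : ℤ) : ℝ) := by
    intro A i j
    have := congrArg (fun B : symplecticGroup l ℝ => B.1 i j) (hφ A)
    exact this.symm
  refine discreteTopology_of_isOpen_singleton_one ?_
  have h3 : ({1} : Set (spZ l)) = ⋂ i, ⋂ j, {A | |A.1.1 i j - (1 : Matrix (l ⊕ l) (l ⊕ l) ℝ) i j| < 1} := by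
    ext A
    simp only [mem_singleton_iff, mem_iInter, mem_setOf_eq]
    constructor
    · rintro rfl i j
      simp
    · intro h
      refine Subtype.ext (Subtype.ext ?_)
      ext i j
      have h4 := h i j
      show A.1.1 i j = (1 : Matrix (l ⊕ l) (l ⊕ l) ℝ) i j
      have h5 : (1 : Matrix (l ⊕ l) (l ⊕ l) ℝ) i j = (((1 : Matrix (l ⊕ l) (l ⊕ l) ℤ) i j : ℤ) : ℝ) := by
        by_cases hij : i = j
        · subst hij; simp
        · simp [hij]
      rw [h5, hent] at h4 ⊢
      have h6 : |(φ A).1 i j - (1 : Matrix (l ⊕ l) (l ⊕ l) ℤ) i j| < 1 := by exact_mod_cast h4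
      rw [Int.abs_lt_one_iff, sub_eq_zero] at h6
      rw [h6]
  rw [h3]
  refine isOpen_iInter_of_finite fun i => isOpen_iInter_of_finite fun j => ?_
  refine isOpen_lt ?_ continuous_const
  refine continuous_abs.comp (Continuous.sub ?_ continuous_const)
  have h4 : Continuous fun A : spZ l => A.1.1 :=
    continuous_subtype_val.comp continuous_subtype_val
  exact (continuous_apply j).comp ((continuous_apply i).comp h4)

end top

end Vale.Agent.P092.H759
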