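import Vale.Agent.P092.H759.SpB

/-!
P092 (helper759), block [P-LAT].  The section of `g ↦ g e₀`; over a field of characteristic zero the
symplectic group has no nontrivial homomorphism to a commutative group.
-/

set_option linter.all false

open Matrix

namespace Vale.Agent.P092.H759

section sec

variable {l : Type} [Fintype l] [DecidableEq l] {K : Type} [Field K]

theorem om_f0_right (x : Option l ⊕ Option l → K) : om x f0 = - x (Sum.inl none) := by
  rw [om_swap, om_f0]

/-- the section of `g ↦ g e₀` -/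
noncomputable def sec (x : Option l ⊕ Option l → K) : symplecticGroup (Option l) K :=
  tS (x - f0) (om x f0)⁻¹ * tS (f0 - e0) 1

theorem sec_e0 {x : Option l ⊕ Option l → K} (hx : x (Sum.inl none) ≠ 0) :
    (sec x).1 *ᵥ e0 = x := by
  have h1 : (1 : K) * om (f0 : Option l ⊕ Option l → K) e0 = 1 := by simp
  have h2 : (om x f0)⁻¹ * om x f0 = 1 := by
    rw [om_f0_right]; exact inv_mul_cancel₀ (neg_ne_zero.2 hx)
  rw [sec, mul_mulVec, tS_trans h1, tS_trans h2]

/-- every element with `(g e₀)_0 ≠ 0` in coordinates -/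
theorem exists_coord' (g : symplecticGroup (Option l) K) (hg : (g.1 *ᵥ e0) (Sum.inl none) ≠ 0) :
    ∃ (S : symplecticGroup l K) (b : l ⊕ l → K) (c : K),
      g = sec (g.1 *ᵥ e0) * (ioS S * heS b c) := by
  obtain ⟨S, b, c, h⟩ := exists_coord ((sec (g.1 *ᵥ e0))⁻¹ * g) (by
    rw [mul_mulVec]
    nth_rw 2 [← sec_e0 hg]
    rw [inv_mulVec])
  exact ⟨S, b, c, by rw [← h, mul_inv_cancel_left]⟩

/-- the form is not degenerate -/
theorem eq_zero_of_om {m : Type} [Fintype m] [DecidableEq m] {y : m ⊕ m → K}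
    (h : ∀ z, om z y = 0) : y = 0 := by
  funext i
  rcases i with i | i
  · have := h (Pi.single (Sum.inr i) 1)
    rwa [om_single_inr] at this
  · have := h (Pi.single (Sum.inl i) 1)
    rw [om_single_inl] at this
    exact neg_eq_zero.1 this

theorem exists_move {y : Option l ⊕ Option l → K} (hy : y ≠ 0) :
    ∃ w : Option l ⊕ Option l → K, w (Sum.inl none) ≠ 0 ∧ om w y ≠ 0 := by
  by_contra hcon
  push Not at hcon
  refine hy (eq_zero_of_om fun z => ?_)
  by_cases hz : z (Sum.inl none) = 0
  · have h1 := hcon (z + e0) (by rw [Pi.add_apply, hz, e0_inl, zero_add]; exact one_ne_zero)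
    have h2 := hcon e0 (by rw [e0_inl]; exact one_ne_zero)
    rw [om_add_left, h2, add_zero] at h1
    exact h1
  · exact hcon z hz

theorem mulVec_ne_zero (g : symplecticGroup l K) {y : l ⊕ l → K} (hy : y ≠ 0) :
    g.1 *ᵥ y ≠ 0 := by
  intro h
  have := inv_mulVec g y
  rw [h, Matrix.mulVec_zero] at this
  exact hy this.symm

theorem e0_ne_zero : (e0 : Option l ⊕ Option l → K) ≠ 0 := by
  intro h
  have := congrFun h (Sum.inl none)
  rw [e0_inl] at this
  exact one_ne_zero this

end sec

section hom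

variable {l : Type} [Fintype l] [DecidableEq l] {K : Type} [Field K] [CharZero K] {C : Type}
  [CommGroup C] (f : symplecticGroup (Option l) K →* C)

theorem f_conj (a b : symplecticGroup (Option l) K) : f (a * b * a⁻¹) = f b := by
  rw [map_mul, map_mul, map_inv, mul_comm (f a), mul_assoc, mul_inv_cancel, mul_one]

theorem f_e0 (c : K) : f (tS e0 c) = 1 := by
  have h1 : ∀ c : K, f (tS e0 (3 * c)) = 1 := by
    intro c
    have h2 := tS_conj (sec ((2 : K) • (e0 : Option l ⊕ Option l → K))) e0 c
    rw [sec_e0 (by simp), tS_smul] at h2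
    have h3 := f_conj f (sec ((2 : K) • (e0 : Option l ⊕ Option l → K))) (tS e0 c)
    rw [h2] at h3
    have h4 : (2 : K) * 2 * c = c + 3 * c := by ring
    rw [h4, ← tS_add, map_mul] at h3
    exact mul_eq_left.1 h3
  have h5 : c = 3 * (c / 3) := by
    field_simp
  rw [h5]
  exact h1 _

theorem f_D {v : Option l ⊕ Option l → K} (hv : v (Sum.inl none) ≠ 0) (c : K) :
    f (tS v c) = 1 := by
  nth_rw 1 [← sec_e0 hv]
  rw [← tS_conj, f_conj, f_e0]

theorem f_sec {x : Option l ⊕ Option l → K} (hx : x (Sum.inl none) ≠ 0) : f (sec x) = 1 := by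
  rw [sec, map_mul, f_D f, f_D f, one_mul]
  · simp
  · simpa using hx

/-- `-1` -/
def neg1 (m : Type) [Fintype m] [DecidableEq m] (R : Type) [CommRing R] : symplecticGroup m R :=
  ⟨-1, SymplecticGroup.neg_mem (one_mem _)⟩

theorem neg1_mulVec {m : Type} [Fintype m] [DecidableEq m] {R : Type} [CommRing R]
    (y : m ⊕ m → R) : (neg1 m R).1 *ᵥ y = -y := by
  show (-1 : Matrix (m ⊕ m) (m ⊕ m) R) *ᵥ y = -y
  rw [Matrix.neg_mulVec, Matrix.one_mulVec]

theorem neg1_inv {m : Type} [Fintype m] [DecidableEq m] {R : Type} [CommRing R] :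
    (neg1 m R)⁻¹ = neg1 m R := by
  rw [inv_eq_iff_mul_eq_one]
  refine sp_ext fun y => ?_
  rw [mul_mulVec, neg1_mulVec, neg1_mulVec, one_mulVec', neg_neg]

theorem heS_zero_left (c : K) : heS (0 : l ⊕ l → K) c = tS e0 (-c) := by
  refine sp_ext fun y => ?_
  rw [heS_mulVec, tS_mulVec, om_zero_right, om_e0, emb_zero, add_zero, zero_smul, add_zero,
    smul_smul]
  congr 2
  ring

theorem f_heS (b : l ⊕ l → K) (c : K) : f (heS b c) = 1 := by
  have h1 : ∀ (b : l ⊕ l → K) (c : K), f (heS b c) * f (heS b c) = 1 := by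
    intro b c
    have h2 : f (heS (-b) c) = f (heS b c) := by
      have h3 := congrArg f (heS_ioS b c (neg1 l K))
      rw [neg1_inv, neg1_mulVec, map_mul, map_mul, mul_comm] at h3
      exact (mul_left_cancel h3).symm
    have h4 : heS b c * heS (-b) c = heS 0 (c + c) := by
      rw [heS_mul, add_neg_cancel, om_neg_left, om_self, neg_zero, add_zero]
    nth_rw 2 [← h2]
    rw [← map_mul, h4, heS_zero_left, f_e0]
  have h5 : heS b c = heS ((1 / 2 : K) • b) (c / 2) * heS ((1 / 2 : K) • b) (c / 2) := by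
    rw [heS_mul, om_self, add_zero, ← add_smul, add_halves, add_halves, one_smul]
  rw [h5, map_mul, h1]

/-- the inclusion of the old group as a homomorphism -/
def ioH (l : Type) [Fintype l] [DecidableEq l] (R : Type) [CommRing R] :
    symplecticGroup l R →* symplecticGroup (Option l) R where
  toFun := ioS
  map_one' := ioS_one
  map_mul' := ioS_mul

theorem hom_triv_step (hl : ∀ f : symplecticGroup l K →* C, f = 1) : f = 1 := by
  have h1 : ∀ S : symplecticGroup l K, f (ioS S) = 1 := fun S => by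
    have := hl (f.comp (ioH l K))
    exact DFunLike.congr_fun this S
  have h2 : ∀ g : symplecticGroup (Option l) K, (g.1 *ᵥ e0) (Sum.inl none) ≠ 0 → f g = 1 := by
    intro g hg
    obtain ⟨S, b, c, h⟩ := exists_coord' g hg
    rw [h, map_mul, map_mul, f_sec f hg, h1, f_heS, one_mul, one_mul]
  ext g
  rw [MonoidHom.one_apply]
  by_cases hg : (g.1 *ᵥ e0) (Sum.inl none) = 0
  · obtain ⟨w, hw, how⟩ := exists_move (mulVec_ne_zero g e0_ne_zero)
    have h3 := h2 (tS w 1 * g) (by
      rw [mul_mulVec, tS_mulVec, Pi.add_apply, hg, zero_add, Pi.smul_apply, one_mul, smul_eq_mul]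
      exact mul_ne_zero how hw)
    rw [map_mul, f_D f hw, one_mul] at h3
    exact h3
  · exact h2 g hg

theorem hom_triv_empty {m : Type} [Fintype m] [DecidableEq m] [IsEmpty m]
    (f : symplecticGroup m K →* C) : f = 1 := by
  ext g
  have : g = 1 := Subtype.ext (Subsingleton.elim _ _)
  rw [this, map_one, map_one]

end hom

end Vale.Agent.P092.H759
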