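import Vale.Agent.P092.H759.SpD
import Vale.Agent.P092.H759.SpS

/-!
P092 (helper759), block [P-LAT].  Part 5: Haar measure of `Sp_{2n+2}(ℝ)` in the coordinates
`g = s(g e₀) · S · (b, c)`.
-/

set_option linter.all false

open Matrix MeasureTheory MeasureTheory.Measure Set Filter Topology
open scoped ENNReal

namespace Vale.Agent.P092.H759

section meas

variable {l : Type} [Fintype l] [DecidableEq l]

/-- the coordinates of the stabiliser of `e₀` -/
abbrev HH (l : Type) [Fintype l] [DecidableEq l] : Type :=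
  symplecticGroup l ℝ × ((l ⊕ l → ℝ) × ℝ)

/-- the stabiliser of `e₀` -/
def psi (h : HH l) : symplecticGroup (Option l) ℝ := ioS h.1 * heS h.2.1 h.2.2

theorem cont_psi : Continuous (psi (l := l)) :=
  (cont_ioS.comp continuous_fst).mul (cont_heS.comp continuous_snd)

theorem psi_inj : Function.Injective (psi (l := l)) := by
  rintro ⟨S, b, c⟩ ⟨S', b', c'⟩ h
  obtain ⟨h1, h2, h3⟩ := coord_inj h
  exact Prod.ext h1 (Prod.ext h2 h3)

theorem psi_e0 (h : HH l) : (psi h).1 *ᵥ e0 = e0 := by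
  rw [psi, mul_mulVec, heS_e0, ioS_e0]

theorem psi_surj {g : symplecticGroup (Option l) ℝ} (hg : g.1 *ᵥ e0 = e0) :
    ∃ h : HH l, psi h = g := by
  obtain ⟨S, b, c, h⟩ := exists_coord g hg
  exact ⟨(S, b, c), h.symm⟩

/-- left multiplication in the coordinates of the stabiliser -/
def Lm (h₀ h : HH l) : HH l :=
  (h₀.1 * h.1, ((h.1⁻¹).1 *ᵥ h₀.2.1 + h.2.1,
    h₀.2.2 + h.2.2 + om h.2.1 ((h.1⁻¹).1 *ᵥ h₀.2.1)))

theorem psi_Lm (h₀ h : HH l) : psi h₀ * psi h = psi (Lm h₀ h) := coord_mul _ _ _ _ _ _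

theorem cont_Lm : Continuous fun p : HH l × HH l => Lm p.1 p.2 := by
  have h1 : Continuous fun p : HH l × HH l => (p.2.1⁻¹).1 *ᵥ p.1.2.1 :=
    Continuous.matrix_mulVec (continuous_subtype_val.comp
      (continuous_inv.comp (continuous_fst.comp continuous_snd)))
      (continuous_fst.comp (continuous_snd.comp continuous_fst))
  have h2 : Continuous fun p : HH l × HH l => om p.2.2.1 ((p.2.1⁻¹).1 *ᵥ p.1.2.1) :=
    cont_om.comp ((continuous_fst.comp (continuous_snd.comp continuous_snd)).prodMk h1)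
  have h3 : Continuous fun p : HH l × HH l => p.1.1 * p.2.1 :=
    (continuous_fst.comp continuous_fst).mul (continuous_fst.comp continuous_snd)
  have h4 : Continuous fun p : HH l × HH l => p.2.2.1 :=
    continuous_fst.comp (continuous_snd.comp continuous_snd)
  have h5 : Continuous fun p : HH l × HH l => p.1.2.2 + p.2.2.2 :=
    (continuous_snd.comp (continuous_snd.comp continuous_fst)).add
      (continuous_snd.comp (continuous_snd.comp continuous_snd))
  exact h3.prodMk ((h1.add h4).prodMk (h5.add h2))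

variable [MeasurableSpace (symplecticGroup l ℝ)] [BorelSpace (symplecticGroup l ℝ)]
  (μ : Measure (symplecticGroup l ℝ)) [IsHaarMeasure μ]

/-- the Haar measure of the stabiliser in coordinates -/
noncomputable def mH : Measure (HH l) := μ.prod (volume.prod volume)

theorem mp_Lm (h₀ : HH l) : MeasurePreserving (Lm h₀) (mH μ) (mH μ) := by
  have h1 : MeasurePreserving (fun S => h₀.1 * S) μ μ := measurePreserving_mul_left μ _
  refine h1.skew_product (g := fun (S : symplecticGroup l ℝ) (p : (l ⊕ l → ℝ) × ℝ) =>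
    ((S⁻¹).1 *ᵥ h₀.2.1 + p.1,
    h₀.2.2 + p.2 + om p.1 ((S⁻¹).1 *ᵥ h₀.2.1))) ?_ (ae_of_all _ fun S => ?_)
  · have h2 : Continuous fun h : HH l => Lm h₀ h :=
      cont_Lm.comp (Continuous.prodMk continuous_const continuous_id)
    exact (continuous_snd.comp h2).measurable
  · have h2 : MeasurePreserving (fun b : l ⊕ l → ℝ => (S⁻¹).1 *ᵥ h₀.2.1 + b) volume volume :=
      measurePreserving_add_left volume _
    have h3 : MeasurePreserving (fun p : (l ⊕ l → ℝ) × ℝ => ((S⁻¹).1 *ᵥ h₀.2.1 + p.1,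
        h₀.2.2 + p.2 + om p.1 ((S⁻¹).1 *ᵥ h₀.2.1)))
        ((volume : Measure (l ⊕ l → ℝ)).prod (volume : Measure ℝ))
        ((volume : Measure (l ⊕ l → ℝ)).prod (volume : Measure ℝ)) := by
      refine h2.skew_product (g := fun b c => h₀.2.2 + c + om b ((S⁻¹).1 *ᵥ h₀.2.1)) ?_
        (ae_of_all _ fun b => ?_)
      · have h4 : Continuous fun p : (l ⊕ l → ℝ) × ℝ =>
            h₀.2.2 + p.2 + om p.1 ((S⁻¹).1 *ᵥ h₀.2.1) :=
          (continuous_const.add continuous_snd).add
            (cont_om.comp (continuous_fst.prodMk continuous_const))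
        exact h4.measurable
      · have h5 : (fun c : ℝ => h₀.2.2 + c + om b ((S⁻¹).1 *ᵥ h₀.2.1)) =
            fun c : ℝ => (h₀.2.2 + om b ((S⁻¹).1 *ᵥ h₀.2.1)) + c := by
          funext c; ring
        rw [h5]
        exact (measurePreserving_add_left volume _).map_eq
    exact h3.map_eq

end meas

section vol

variable {m : Type} [Fintype m] [DecidableEq m]

/-- symplectic matrices preserve the volume -/
theorem mp_vol (g : symplecticGroup m ℝ) :
    MeasurePreserving (fun x : m ⊕ m → ℝ => g.1 *ᵥ x) volume volume := by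
  have hd : g.1.det = 1 := SymplecticGroup.det_eq_one g.2
  refine ⟨(Continuous.matrix_mulVec continuous_const continuous_id).measurable, ?_⟩
  have h1 := Real.map_matrix_volume_pi_eq_smul_volume_pi (M := g.1) (by rw [hd]; norm_num)
  rw [hd, inv_one, abs_one, ENNReal.ofReal_one, one_smul] at h1
  exact h1

theorem null_coord (i : m ⊕ m) : volume {x : m ⊕ m → ℝ | x i = 0} = 0 := by
  rw [volume_pi]
  exact Measure.pi_hyperplane _ i 0

end vol

section haar

variable {l : Type} [Fintype l] [DecidableEq l]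
  [MeasurableSpace (symplecticGroup l ℝ)] [BorelSpace (symplecticGroup l ℝ)]
  [MeasurableSpace (symplecticGroup (Option l) ℝ)] [BorelSpace (symplecticGroup (Option l) ℝ)]
  (μ : Measure (symplecticGroup l ℝ)) [IsHaarMeasure μ]

theorem meas_sec : Measurable (sec (l := l) (K := ℝ)) := by
  have h1 : Continuous fun x : Option l ⊕ Option l → ℝ => om x f0 :=
    cont_om.comp (continuous_id.prodMk continuous_const)
  have h2 : Measurable fun x : Option l ⊕ Option l → ℝ => (x - f0, (om x f0)⁻¹) :=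
    ((continuous_id.sub continuous_const).measurable).prodMk h1.measurable.inv
  exact (cont_tS.measurable.comp h2).mul_const _

/-- the coordinates of the big group -/
noncomputable def Phi (p : (Option l ⊕ Option l → ℝ) × HH l) : symplecticGroup (Option l) ℝ :=
  sec p.1 * psi p.2

theorem meas_Phi : Measurable (Phi (l := l)) :=
  (meas_sec.comp measurable_fst).mul (cont_psi.measurable.comp measurable_snd)

theorem Phi_e0 {p : (Option l ⊕ Option l → ℝ) × HH l} (hp : p.1 (Sum.inl none) ≠ 0) :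
    (Phi p).1 *ᵥ e0 = p.1 := by
  rw [Phi, mul_mulVec, psi_e0, sec_e0 hp]

theorem Phi_injOn : InjOn (Phi (l := l)) {p | p.1 (Sum.inl none) ≠ 0} := by
  rintro ⟨x, h⟩ hx ⟨x', h'⟩ hx' he
  have h1 : x = x' := by
    have h2 := Phi_e0 hx
    have h3 := Phi_e0 hx'
    rw [he] at h2
    exact h2.symm.trans h3
  subst h1
  have h4 : psi h = psi h' := mul_left_cancel he
  rw [psi_inj h4]

theorem Phi_surj {g : symplecticGroup (Option l) ℝ} (hg : (g.1 *ᵥ e0) (Sum.inl none) ≠ 0) :
    ∃ h : HH l, Phi (g.1 *ᵥ e0, h) = g := by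
  obtain ⟨h, hh⟩ := psi_surj (g := (sec (g.1 *ᵥ e0))⁻¹ * g) (by
    rw [mul_mulVec]
    nth_rw 2 [← sec_e0 hg]
    rw [inv_mulVec])
  exact ⟨h, by rw [Phi, hh, mul_inv_cancel_left]⟩

/-- the measure in the coordinates -/
noncomputable def MM : Measure ((Option l ⊕ Option l → ℝ) × HH l) := volume.prod (mH μ)

instance : SigmaFinite (mH μ) := by unfold mH; infer_instance
instance : SigmaFinite (MM μ) := by unfold MM; infer_instance

theorem ae_coord : ∀ᵐ p ∂(MM μ), p.1 (Sum.inl none) ≠ 0 := by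
  have h1 : ∀ᵐ x ∂(volume : Measure (Option l ⊕ Option l → ℝ)), x (Sum.inl none) ≠ 0 := by
    rw [ae_iff]; simpa using null_coord (m := Option l) (Sum.inl none)
  exact Measure.quasiMeasurePreserving_fst.ae h1

theorem ae_coord' (g : symplecticGroup (Option l) ℝ) :
    ∀ᵐ p ∂(MM μ), (g.1 *ᵥ p.1) (Sum.inl none) ≠ 0 := by
  have h1 : ∀ᵐ x ∂(volume : Measure (Option l ⊕ Option l → ℝ)), x (Sum.inl none) ≠ 0 := by
    rw [ae_iff]; simpa using null_coord (m := Option l) (Sum.inl none)
  have h2 := (mp_vol g).quasiMeasurePreserving.ae h1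
  exact Measure.quasiMeasurePreserving_fst.ae h2

theorem exists_iv : ∃ iv : symplecticGroup (Option l) ℝ → HH l, Measurable iv ∧
    ∀ h, iv (psi h) = h := by
  have h1 : MeasurableEmbedding (psi (l := l)) := cont_psi.measurable.measurableEmbedding psi_inj
  obtain ⟨iv, h2, h3⟩ := h1.exists_measurable_extend measurable_id fun _ => ⟨(1, 0, 0)⟩
  exact ⟨iv, h2, fun h => congrFun h3 h⟩

/-- the measure is left invariant -/
theorem left_inv (g : symplecticGroup (Option l) ℝ) :
    ((MM μ).map Phi).map (g * ·) = (MM μ).map Phi := by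
  obtain ⟨iv, hiv, hivp⟩ := exists_iv (l := l)
  obtain ⟨η, hη⟩ : ∃ η : (Option l ⊕ Option l → ℝ) → symplecticGroup (Option l) ℝ,
      ∀ x, η x = (sec (g.1 *ᵥ x))⁻¹ * (g * sec x) := ⟨_, fun _ => rfl⟩
  have hηm : Measurable η := by
    have h1 : η = fun x => (sec (g.1 *ᵥ x))⁻¹ * (g * sec x) := funext hη
    rw [h1]
    exact (meas_sec.comp (mp_vol g).measurable).inv.mul (meas_sec.const_mul g)
  have hT : MeasurePreserving (fun p : (Option l ⊕ Option l → ℝ) × HH l =>
      (g.1 *ᵥ p.1, Lm (iv (η p.1)) p.2)) (MM μ) (MM μ) := by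
    refine (mp_vol g).skew_product (g := fun x h => Lm (iv (η x)) h) ?_
      (ae_of_all _ fun x => (mp_Lm μ _).map_eq)
    exact cont_Lm.measurable.comp
      (((hiv.comp hηm).comp measurable_fst).prodMk measurable_snd)
  rw [Measure.map_map (measurable_const_mul g) meas_Phi]
  have h2 : ((fun x => g * x) ∘ Phi (l := l)) =ᵐ[MM μ]
      (Phi ∘ fun p : (Option l ⊕ Option l → ℝ) × HH l => (g.1 *ᵥ p.1, Lm (iv (η p.1)) p.2)) := by
    filter_upwards [ae_coord μ, ae_coord' μ g] with p hp hp'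
    have h3 : (η p.1).1 *ᵥ e0 = e0 := by
      rw [hη, mul_mulVec, mul_mulVec, sec_e0 hp]
      nth_rw 2 [← sec_e0 hp']
      rw [inv_mulVec]
    obtain ⟨h', hh'⟩ := psi_surj h3
    have h4 : psi (iv (η p.1)) = η p.1 := by rw [← hh', hivp]
    show g * Phi p = Phi (g.1 *ᵥ p.1, Lm (iv (η p.1)) p.2)
    rw [Phi, Phi, ← psi_Lm, h4, hη]
    simp only [mul_assoc, mul_inv_cancel_left]
  rw [Measure.map_congr h2, ← Measure.map_map meas_Phi hT.measurable, hT.map_eq]

theorem isLeftInv : IsMulLeftInvariant ((MM μ).map (Phi (l := l))) :=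
  ⟨fun g => left_inv μ g⟩

/-- the set of the elements without coordinates -/
def NN (l : Type) [Fintype l] [DecidableEq l] : Set (symplecticGroup (Option l) ℝ) :=
  {g | (g.1 *ᵥ e0) (Sum.inl none) = 0}

theorem meas_NN : MeasurableSet (NN l) := by
  have h0 : Continuous fun g : symplecticGroup (Option l) ℝ => g.1 *ᵥ e0 :=
    Continuous.matrix_mulVec continuous_subtype_val continuous_const
  have h1 : Continuous fun g : symplecticGroup (Option l) ℝ => (g.1 *ᵥ e0) (Sum.inl none) :=
    (continuous_apply (Sum.inl none : Option l ⊕ Option l)).comp h0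
  exact (isClosed_eq h1 continuous_const).measurableSet

/-- the measure of an image is at most the measure of the set -/
theorem map_image_le {A : Set ((Option l ⊕ Option l → ℝ) × HH l)} (hA : MeasurableSet A) :
    (MM μ).map Phi (Phi '' (A ∩ {p | p.1 (Sum.inl none) ≠ 0}) ∪ NN l) ≤ MM μ A := by
  have hD : MeasurableSet {p : (Option l ⊕ Option l → ℝ) × HH l | p.1 (Sum.inl none) ≠ 0} := by
    have h1 : Continuous fun p : (Option l ⊕ Option l → ℝ) × HH l => p.1 (Sum.inl none) :=
      (continuous_apply _).comp continuous_fst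
    exact (isClosed_eq h1 continuous_const).measurableSet.compl
  have h1 : MeasurableSet (Phi '' (A ∩ {p | p.1 (Sum.inl none) ≠ 0}) ∪ NN l) :=
    ((hA.inter hD).image_of_measurable_injOn meas_Phi (Phi_injOn.mono inter_subset_right)).union
      meas_NN
  rw [Measure.map_apply meas_Phi h1]
  refine measure_mono_ae ?_
  filter_upwards [ae_coord μ] with p hp hp'
  rcases hp' with ⟨q, hq, hqp⟩ | hp'
  · have := Phi_injOn hq.2 hp hqp
    rw [← this]; exact hq.1
  · have h2 : ((Phi p).1 *ᵥ e0) (Sum.inl none) = 0 := hp'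
    rw [Phi_e0 hp] at h2
    exact absurd h2 hp

theorem cover_all (g : symplecticGroup (Option l) ℝ) :
    g ∈ NN l ∨ ∃ p : (Option l ⊕ Option l → ℝ) × HH l, p.1 (Sum.inl none) ≠ 0 ∧ Phi p = g := by
  by_cases hg : (g.1 *ᵥ e0) (Sum.inl none) = 0
  · exact Or.inl hg
  · obtain ⟨h, hh⟩ := Phi_surj hg
    exact Or.inr ⟨_, hg, hh⟩

theorem sigmaFinite_map : SigmaFinite ((MM μ).map (Phi (l := l))) := by
  refine ⟨⟨{
    set := fun n => Phi '' (spanningSets (MM μ) n ∩ {p | p.1 (Sum.inl none) ≠ 0}) ∪ NN l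
    set_mem := fun _ => trivial
    finite := fun n => (map_image_le μ (measurableSet_spanningSets _ n)).trans_lt
      (measure_spanningSets_lt_top _ n)
    spanning := ?_ }⟩⟩
  rw [eq_univ_iff_forall]
  intro g
  rw [mem_iUnion]
  rcases cover_all g with hg | ⟨p, hp, hpg⟩
  · exact ⟨0, Or.inr hg⟩
  · have h1 : p ∈ ⋃ n, spanningSets (MM μ) n := by rw [iUnion_spanningSets]; trivial
    obtain ⟨n, hn⟩ := mem_iUnion.1 h1
    exact ⟨n, Or.inl ⟨p, ⟨hn, hp⟩, hpg⟩⟩

/-- **The criterion**: the Haar measure of the image of a set of finite measure is finite. -/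
theorem haar_image_lt (ν : Measure (symplecticGroup (Option l) ℝ)) [IsHaarMeasure ν]
    {A : Set ((Option l ⊕ Option l → ℝ) × HH l)} (hA : MeasurableSet A) (hA1 : MM μ A < ∞) :
    ν (Phi '' (A ∩ {p | p.1 (Sum.inl none) ≠ 0}) ∪ NN l) < ∞ := by
  have hσ := sigmaFinite_map μ
  have hL := isLeftInv μ
  obtain ⟨ρ, hρ⟩ : ∃ ρ, ρ = (MM μ).map (Phi (l := l)) := ⟨_, rfl⟩
  rw [← hρ] at hσ hL
  have h0 : ρ univ ≠ 0 := by
    rw [hρ, Measure.map_apply meas_Phi MeasurableSet.univ, preimage_univ, MM, mH,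
      ← univ_prod_univ, Measure.prod_prod, ← univ_prod_univ, Measure.prod_prod, ← univ_prod_univ,
      Measure.prod_prod]
    refine mul_ne_zero (measure_univ_ne_zero.2 (NeZero.ne _)) (mul_ne_zero
      (measure_univ_ne_zero.2 (NeZero.ne _)) (mul_ne_zero (measure_univ_ne_zero.2 (NeZero.ne _))
        (measure_univ_ne_zero.2 (NeZero.ne _))))
  obtain ⟨s, hs1, hs2⟩ : ∃ s, (ρ + ν) s < ∞ ∧ ρ s ≠ 0 := by
    by_contra hcon
    push Not at hcon
    refine h0 ?_
    rw [← iUnion_spanningSets (ρ + ν), measure_iUnion_null_iff]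
    exact fun n => hcon _ (measure_spanningSets_lt_top _ n)
  rw [Measure.add_apply, ENNReal.add_lt_top] at hs1
  have h1 := measure_mul_measure_eq ν ρ s
    (Phi '' (A ∩ {p | p.1 (Sum.inl none) ≠ 0}) ∪ NN l) hs2 hs1.1.ne
  have h2 : ρ (Phi '' (A ∩ {p | p.1 (Sum.inl none) ≠ 0}) ∪ NN l) < ∞ := by
    rw [hρ]; exact (map_image_le μ hA).trans_lt hA1
  have h3 : ρ s * ν (Phi '' (A ∩ {p | p.1 (Sum.inl none) ≠ 0}) ∪ NN l) < ∞ := by
    rw [← h1]; exact ENNReal.mul_lt_top hs1.2 h2
  exact ENNReal.lt_top_of_mul_ne_top_right h3.ne hs2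

end haar

end Vale.Agent.P092.H759
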