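import Vale.Agent.P092.H759.SpI
import Vale.Agent.P092.H17.SpGrp
import Vale.Agent.P092.SP.St

/-!
P092 (helper759), block [P-LAT].  Part 9: every subgroup of finite index of `Sp_4(ℤ)` without `-1`,
for instance the principal congruence subgroup of level `N ≥ 3`, is an ICC lattice of `Sp_4(ℝ)`
(frozen letters of Team P, `SP/St.lean`).
-/

set_option linter.all false

open Matrix MeasureTheory Set Topology

namespace Vale.Agent.P092.H759

section gen

variable {l : Type} [Fintype l] [DecidableEq l]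

theorem mp_injective : Function.Injective (mp (l := l) (Int.castRingHom ℝ)) := by
  intro A B h
  apply Subtype.ext
  ext i j
  have := congrArg (fun C : symplecticGroup l ℝ => C.1 i j) h
  have h2 : ((A.1 i j : ℤ) : ℝ) = ((B.1 i j : ℤ) : ℝ) := this
  exact_mod_cast h2

/-- Subgroups of finite index of `Sp_{2n}(ℤ)` are lattices of `Sp_{2n}(ℝ)`. -/
theorem isLattice_map_of_finiteIndex (Γ : Subgroup (symplecticGroup l ℤ)) [hΓ : Γ.FiniteIndex] :
    H515.IsLattice (Γ.map (mp (l := l) (Int.castRingHom ℝ))) := by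
  have h1 : Γ.map (mp (l := l) (Int.castRingHom ℝ)) ≤ spZ l := by
    rintro _ ⟨g, -, rfl⟩
    exact ⟨g, rfl⟩
  have h2 : ((Γ.map (mp (l := l) (Int.castRingHom ℝ))).subgroupOf (spZ l)).FiniteIndex := by
    constructor
    have h3 : spZ l = (⊤ : Subgroup (symplecticGroup l ℤ)).map (mp (l := l) (Int.castRingHom ℝ)) :=
      MonoidHom.range_eq_map _
    have h4 := Subgroup.relIndex_map_map_of_injective Γ ⊤ (mp_injective (l := l))
    rw [← h3, Subgroup.relIndex_top_right] at h4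
    show (Γ.map (mp (l := l) (Int.castRingHom ℝ))).relIndex (spZ l) ≠ 0
    rw [h4]
    exact hΓ.index_ne_zero
  exact isLattice_of_finiteIndex (isLattice_spZ l) h1

variable {n : Type} [Fintype n] [DecidableEq n] (e : n ≃ l ⊕ l)
  (G : Subgroup (SpecialLinearGroup n ℝ))
    (hG : ∀ g, g ∈ G ↔ g.1 * (J l ℝ).submatrix e e * g.1.transpose = (J l ℝ).submatrix e e)

include hG in
theorem lc_G : LocallyCompactSpace G := by
  let φ : symplecticGroup l ℝ ≃ₜ G :=
    { (trE e G hG).toEquiv with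
      continuous_toFun := cont_trE e G hG
      continuous_invFun := cont_trE_symm e G hG }
  exact φ.symm.isClosedEmbedding.locallyCompactSpace

/-- the inclusion of a subgroup of `Sp_{2n}(ℤ)` in the group of the form -/
noncomputable def inc (Γ : Subgroup (symplecticGroup l ℤ)) : Γ →* G :=
  ((trE e G hG).toMonoidHom.comp (mp (l := l) (Int.castRingHom ℝ))).comp Γ.subtype

theorem inc_injective (Γ : Subgroup (symplecticGroup l ℤ)) :
    Function.Injective (inc e G hG Γ) :=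
  ((trE e G hG).injective.comp mp_injective).comp Subtype.val_injective

theorem isLattice_inc (Γ : Subgroup (symplecticGroup l ℤ)) [Γ.FiniteIndex] :
    H515.IsLattice (inc e G hG Γ).range := by
  have := lc_G e G hG
  have hsc : SecondCountableTopology (SpecialLinearGroup n ℝ) :=
    TopologicalSpace.Subtype.secondCountableTopology {A : Matrix n n ℝ | A.det = 1}
  have hsc' : SecondCountableTopology G := TopologicalSpace.Subtype.secondCountableTopology _
  have h1 := (isLattice_map_of_finiteIndex Γ).map_equiv (trE e G hG) (cont_trE e G hG)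
    (cont_trE_symm e G hG)
  have h2 : (inc e G hG Γ).range = (Γ.map (mp (l := l) (Int.castRingHom ℝ))).map
      (trE e G hG : symplecticGroup l ℝ →* G) := by
    ext x
    constructor
    · rintro ⟨g, rfl⟩
      exact ⟨_, ⟨g.1, g.2, rfl⟩, rfl⟩
    · rintro ⟨_, ⟨g, hg, rfl⟩, rfl⟩
      exact ⟨⟨g, hg⟩, rfl⟩
  rw [h2]
  exact h1

end gen

/-- the indices of Team P -/
def e4 : Fin 4 ≃ Fin 2 ⊕ Fin 2 where
  toFun := ![Sum.inr 0, Sum.inr 1, Sum.inl 1, Sum.inl 0]
  invFun := Sum.elim ![3, 2] ![0, 1]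
  left_inv i := by fin_cases i <;> rfl
  right_inv i := by rcases i with i | i <;> fin_cases i <;> rfl

theorem J_e4 : (J (Fin 2) ℝ).submatrix e4 e4 = SP.St.J ℝ := by
  ext i j
  fin_cases i <;> fin_cases j <;> simp [e4, J, SP.St.J]

/-- `Sp_4(ℝ)` in the letters of Team P -/
def G4 : Subgroup (SpecialLinearGroup (Fin 4) ℝ) where
  carrier := {g | g.1 * SP.St.J ℝ * g.1.transpose = SP.St.J ℝ}
  mul_mem' {a b} ha hb := by
    show (a.1 * b.1) * _ * (a.1 * b.1).transpose = _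
    have ha' : a.1 * SP.St.J ℝ * a.1.transpose = SP.St.J ℝ := ha
    have hb' : b.1 * SP.St.J ℝ * b.1.transpose = SP.St.J ℝ := hb
    rw [Matrix.transpose_mul]
    calc a.1 * b.1 * SP.St.J ℝ * (b.1ᵀ * a.1ᵀ) = a.1 * (b.1 * SP.St.J ℝ * b.1ᵀ) * a.1ᵀ := by
          simp only [Matrix.mul_assoc]
      _ = _ := by rw [hb', ha']
  one_mem' := by
    show (1 : Matrix (Fin 4) (Fin 4) ℝ) * _ * (1 : Matrix (Fin 4) (Fin 4) ℝ).transpose = _
    simp
  inv_mem' {a} ha := by
    have ha' : a.1 * SP.St.J ℝ * a.1.transpose = SP.St.J ℝ := ha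
    show (a⁻¹).1 * SP.St.J ℝ * (a⁻¹).1.transpose = SP.St.J ℝ
    have h1 : (a⁻¹).1 * a.1 = 1 := by
      have := congrArg Subtype.val (inv_mul_cancel a)
      exact this
    have h2 : a.1.transpose * (a⁻¹).1.transpose = 1 := by
      rw [← Matrix.transpose_mul, h1, Matrix.transpose_one]
    nth_rw 1 [← ha']
    calc (a⁻¹).1 * (a.1 * SP.St.J ℝ * a.1ᵀ) * (a⁻¹).1ᵀ =
        ((a⁻¹).1 * a.1) * SP.St.J ℝ * (a.1ᵀ * (a⁻¹).1ᵀ) := by simp only [Matrix.mul_assoc]
      _ = _ := by rw [h1, h2, Matrix.one_mul, Matrix.mul_one]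

theorem isSp_G4 : SP.St.IsSp ℝ G4 := fun g => Iff.rfl

theorem hG4 (g : SpecialLinearGroup (Fin 4) ℝ) :
    g ∈ G4 ↔ g.1 * (J (Fin 2) ℝ).submatrix e4 e4 * g.1.transpose =
      (J (Fin 2) ℝ).submatrix e4 e4 := by
  rw [J_e4]; exact isSp_G4 g

/-- **Every subgroup of finite index of `Sp_4(ℤ)` without `-1` is an ICC lattice of `Sp_4(ℝ)`.** -/
theorem spLatticeOver_of_finiteIndex (Γ : Subgroup (symplecticGroup (Fin 2) ℤ)) [Γ.FiniteIndex]
    (hneg : ∀ g ∈ Γ, (g : Matrix (Fin 2 ⊕ Fin 2) (Fin 2 ⊕ Fin 2) ℤ) ≠ -1) :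
    SP.St.SpLatticeOver ℝ Γ := by
  refine ⟨fun g hg => H17.icc_of_finiteIndex Γ hneg g hg, G4, inc e4 G4 hG4 Γ, isSp_G4,
    inc_injective e4 G4 hG4 Γ, ?_⟩
  have h := isLattice_inc e4 G4 hG4 Γ
  exact ⟨h.disc, h.covol⟩

/-- The same in the class of all local fields. -/
theorem spLattice_of_finiteIndex (Γ : Subgroup (symplecticGroup (Fin 2) ℤ)) [Γ.FiniteIndex]
    (hneg : ∀ g ∈ Γ, (g : Matrix (Fin 2 ⊕ Fin 2) (Fin 2 ⊕ Fin 2) ℤ) ≠ -1) :
    SP.St.SpLattice Γ := by
  obtain ⟨h1, G, i, h2, h3, h4⟩ := spLatticeOver_of_finiteIndex Γ hneg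
  exact ⟨h1, ℝ, inferInstance, G, i, inferInstance, .real (RingEquiv.refl ℝ) (fun x => rfl),
    two_ne_zero, h2, h3, h4⟩

/-- The principal congruence subgroup of level `N` of `Sp_{2n}(ℤ)`. -/
def cong (l : Type) [Fintype l] [DecidableEq l] (N : ℕ) : Subgroup (symplecticGroup l ℤ) :=
  (mp (l := l) (Int.castRingHom (ZMod N))).ker

theorem cong_finiteIndex (l : Type) [Fintype l] [DecidableEq l] (N : ℕ) [NeZero N] :
    (cong l N).FiniteIndex := by
  have h1 : Finite (Matrix (l ⊕ l) (l ⊕ l) (ZMod N)) :=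
    inferInstanceAs (Finite (l ⊕ l → l ⊕ l → ZMod N))
  have h2 : Finite (symplecticGroup l (ZMod N)) := Subtype.finite
  exact inferInstanceAs ((mp (l := l) (Int.castRingHom (ZMod N))).ker).FiniteIndex

theorem cong_neg {l : Type} [Fintype l] [DecidableEq l] [Nonempty l] {N : ℕ} (hN : 3 ≤ N) :
    ∀ g ∈ cong l N, (g : Matrix (l ⊕ l) (l ⊕ l) ℤ) ≠ -1 := by
  intro g hg h
  have h1 : mp (l := l) (Int.castRingHom (ZMod N)) g = 1 := hg
  obtain ⟨i⟩ := (inferInstance : Nonempty l)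
  have h2 := congrArg (fun A : symplecticGroup l (ZMod N) => A.1 (Sum.inl i) (Sum.inl i)) h1
  have h3 : ((g.1 (Sum.inl i) (Sum.inl i) : ℤ) : ZMod N) = 1 := by
    have : (1 : Matrix (l ⊕ l) (l ⊕ l) (ZMod N)) (Sum.inl i) (Sum.inl i) = 1 := by simp
    exact h2.trans this
  rw [h] at h3
  simp only [Matrix.neg_apply, Matrix.one_apply_eq, Int.cast_neg, Int.cast_one] at h3
  have h4 : ((2 : ℕ) : ZMod N) = 0 := by
    have : (2 : ZMod N) = 1 - (-1) := by ring
    push_cast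
    rw [this, h3, sub_self]
  rw [ZMod.natCast_eq_zero_iff] at h4
  have := Nat.le_of_dvd (by norm_num) h4
  omega

/-- **The principal congruence subgroup of level `N ≥ 3` of `Sp_4(ℤ)` is an ICC lattice of
`Sp_4(ℝ)`.** -/
theorem spLatticeOver_cong {N : ℕ} (hN : 3 ≤ N) : SP.St.SpLatticeOver ℝ (cong (Fin 2) N) := by
  have : NeZero N := ⟨by omega⟩
  have := cong_finiteIndex (Fin 2) N
  exact spLatticeOver_of_finiteIndex _ (cong_neg hN)

end Vale.Agent.P092.H759
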