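import Vale.Agent.P092.H759.SpE

/-!
P092 (helper759), block [P-LAT].  Part 6: the covering (Minkowski), `Sp_{2n}(ℤ)` is a lattice.
-/

set_option linter.all false

open Matrix MeasureTheory MeasureTheory.Measure Set Filter Topology
open scoped ENNReal

namespace Vale.Agent.P092.H759

section mink

variable {ι : Type} [Fintype ι] [DecidableEq ι] [Nonempty ι]

/-- **Minkowski.** -/
theorem exists_short (g : Matrix ι ι ℝ) (h0 : g.det = 1) :
    ∃ v : ι → ℤ, v ≠ 0 ∧ ∀ j, |(g *ᵥ fun i => ((v i : ℤ) : ℝ)) j| < 2 := by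
  have hli : LinearIndependent ℝ (fun i => gᵀ i) :=
    linearIndependent_rows_of_det_ne_zero (by rw [det_transpose, h0]; exact one_ne_zero)
  obtain ⟨b, hb⟩ : ∃ b : Module.Basis ι ℝ (ι → ℝ), ∀ i, b i = gᵀ i :=
    ⟨basisOfLinearIndependentOfCardEqFinrank hli (by simp), fun i => by simp⟩
  have hfd := ZSpan.isAddFundamentalDomain' b (volume : Measure (ι → ℝ))
  have hvol : (volume : Measure (ι → ℝ)) (ZSpan.fundamentalDomain b) ≤ 1 := by
    rw [ZSpan.volume_fundamentalDomain]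
    have : (Matrix.of (b : ι → ι → ℝ)) = gᵀ := by
      ext i j
      rw [Matrix.of_apply, hb]
    rw [this, det_transpose, h0, abs_one, ENNReal.ofReal_one]
  have hball : (volume : Measure (ι → ℝ)) (Metric.ball 0 2) = (2 * 2) ^ Fintype.card ι := by
    rw [Real.volume_pi_ball 0 (by norm_num : (0 : ℝ) < 2)]
    simp
  have hcount : Countable (Submodule.span ℤ (Set.range b)).toAddSubgroup :=
    inferInstanceAs (Countable (Submodule.span ℤ (Set.range b)))
  obtain ⟨x, hx0, hx⟩ := exists_ne_zero_mem_lattice_of_measure_mul_two_pow_lt_measure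
    (μ := (volume : Measure (ι → ℝ))) (s := Metric.ball 0 2) hfd
    (fun x hx => by simpa using hx) (convex_ball _ _) (by
      rw [hball]
      have h2 : Module.finrank ℝ (ι → ℝ) = Fintype.card ι := by simp
      rw [h2]
      calc _ ≤ 1 * (2 : ENNReal) ^ Fintype.card ι := by gcongr
        _ < (2 * 2) ^ Fintype.card ι := by
          rw [one_mul]
          refine ENNReal.pow_lt_pow_left Fintype.card_ne_zero ?_
          norm_num)
  obtain ⟨c, hc⟩ := (Submodule.mem_span_range_iff_exists_fun ℤ).1 x.2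
  refine ⟨c, ?_, fun j => ?_⟩
  · rintro rfl
    apply hx0
    apply Subtype.ext
    rw [← hc]
    simp
  · have h3 : ‖(x : ι → ℝ)‖ < 2 := by simpa using hx
    have h4 := (norm_le_pi_norm (x : ι → ℝ) j).trans_lt h3
    have h5 : (x : ι → ℝ) j = (g *ᵥ fun i => ((c i : ℤ) : ℝ)) j := by
      rw [← hc]
      simp only [Finset.sum_apply, Pi.smul_apply, hb, Matrix.transpose_apply, Matrix.mulVec,
        dotProduct, zsmul_eq_mul]
      exact Finset.sum_congr rfl fun i _ => mul_comm _ _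
    rw [h5, Real.norm_eq_abs] at h4
    exact h4

end mink

section cover

variable {l : Type} [Fintype l] [DecidableEq l]

/-- the box of the coordinates -/
def box (F : Set (symplecticGroup l ℝ)) : Set ((Option l ⊕ Option l → ℝ) × HH l) :=
  Metric.closedBall 0 2 ×ˢ (F ×ˢ (Metric.closedBall 0 1 ×ˢ Metric.closedBall 0 1))

theorem meas_box [MeasurableSpace (symplecticGroup l ℝ)] [BorelSpace (symplecticGroup l ℝ)]
    {F : Set (symplecticGroup l ℝ)} (hF : MeasurableSet F) : MeasurableSet (box F) :=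
  Metric.isClosed_closedBall.measurableSet.prod (hF.prod
    (Metric.isClosed_closedBall.measurableSet.prod Metric.isClosed_closedBall.measurableSet))

theorem box_lt [MeasurableSpace (symplecticGroup l ℝ)] [BorelSpace (symplecticGroup l ℝ)]
    (μ : Measure (symplecticGroup l ℝ)) [IsHaarMeasure μ] {F : Set (symplecticGroup l ℝ)}
    (hF : μ F < ∞) : MM μ (box F) < ∞ := by
  rw [box, MM, mH, Measure.prod_prod, Measure.prod_prod, Measure.prod_prod]
  exact ENNReal.mul_lt_top (isCompact_closedBall _ _).measure_lt_top (ENNReal.mul_lt_top hF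
    (ENNReal.mul_lt_top (isCompact_closedBall _ _).measure_lt_top
      (isCompact_closedBall _ _).measure_lt_top))

theorem mp_e0 (γ : symplecticGroup (Option l) ℤ) :
    (mp (Int.castRingHom ℝ) γ).1 *ᵥ e0 = fun i => (((γ.1 *ᵥ e0) i : ℤ) : ℝ) := by
  have h := mp_mulVec (Int.castRingHom ℝ) γ e0
  rw [map_e0] at h
  exact h

/-- every element is moved to the box -/
theorem cover {F : Set (symplecticGroup l ℝ)}
    (hF : ∀ S, ∃ δ : symplecticGroup l ℤ, S * mp (Int.castRingHom ℝ) δ ∈ F)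
    (g : symplecticGroup (Option l) ℝ) : ∃ γ : symplecticGroup (Option l) ℤ,
      g * mp (Int.castRingHom ℝ) γ ∈ Phi '' (box F ∩ {p | p.1 (Sum.inl none) ≠ 0}) ∪ NN l := by
  obtain ⟨v, hv0, hv⟩ := exists_short g.1 (SymplecticGroup.det_eq_one g.2)
  obtain ⟨a, u, ha, ⟨γ₁, hγ₁⟩, hvu⟩ := exists_orb hv0
  obtain ⟨g₁, hg₁⟩ : ∃ g₁, g₁ = g * mp (Int.castRingHom ℝ) γ₁ := ⟨_, rfl⟩
  obtain ⟨x, hx⟩ : ∃ x, x = g₁.1 *ᵥ e0 := ⟨_, rfl⟩
  have hxn : ‖x‖ ≤ 2 := by
    rw [pi_norm_le_iff_of_nonneg (by norm_num)]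
    intro j
    have h1 := hv j
    have h2 : (fun i => ((v i : ℤ) : ℝ)) = (a : ℝ) • (fun i => ((u i : ℤ) : ℝ)) := by
      funext i; rw [hvu]; simp
    have h3 : x = g.1 *ᵥ fun i => ((u i : ℤ) : ℝ) := by
      rw [hx, hg₁, mul_mulVec, mp_e0, hγ₁]
    rw [h2, Matrix.mulVec_smul, ← h3, Pi.smul_apply, smul_eq_mul, abs_mul] at h1
    have h4 : (1 : ℝ) ≤ |(a : ℝ)| := by
      have : (1 : ℤ) ≤ |a| := Int.one_le_abs ha
      exact_mod_cast this
    rw [Real.norm_eq_abs]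
    nlinarith [abs_nonneg (x j)]
  by_cases hx0 : x (Sum.inl none) = 0
  · exact ⟨γ₁, Or.inr (by rw [← hg₁]; show (g₁.1 *ᵥ e0) (Sum.inl none) = 0; rw [← hx]; exact hx0)⟩
  · obtain ⟨S, b, c, hc⟩ := exists_coord' g₁ (by rw [← hx]; exact hx0)
    rw [← hx] at hc
    obtain ⟨δ, hδ⟩ := hF S
    obtain ⟨b', hb'⟩ : ∃ b', b' = ((mp (Int.castRingHom ℝ) δ)⁻¹).1 *ᵥ b := ⟨_, rfl⟩
    obtain ⟨b₁, hb₁⟩ : ∃ b₁ : l ⊕ l → ℤ, ∀ i, b₁ i = -⌊b' i⌋ := ⟨_, fun _ => rfl⟩
    obtain ⟨b₁', hb₁'⟩ : ∃ b₁' : l ⊕ l → ℝ, b₁' = fun i => ((b₁ i : ℤ) : ℝ) := ⟨_, rfl⟩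
    obtain ⟨c₁, hc₁⟩ : ∃ c₁ : ℤ, c₁ = -⌊c + om b₁' b'⌋ := ⟨_, rfl⟩
    refine ⟨γ₁ * (ioS δ * heS b₁ c₁), Or.inl ⟨(x, (S * mp (Int.castRingHom ℝ) δ,
      (b' + b₁', c + c₁ + om b₁' b'))), ⟨⟨?_, hδ, ?_, ?_⟩, hx0⟩, ?_⟩⟩
    · simpa using hxn
    · show b' + b₁' ∈ Metric.closedBall (0 : l ⊕ l → ℝ) 1
      rw [mem_closedBall_zero_iff, pi_norm_le_iff_of_nonneg (by norm_num)]
      intro j
      have h8 : b₁' j = ((b₁ j : ℤ) : ℝ) := by rw [hb₁']
      rw [Pi.add_apply, h8, hb₁, Int.cast_neg, ← sub_eq_add_neg, Real.norm_eq_abs,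
        Int.self_sub_floor, abs_of_nonneg (Int.fract_nonneg _)]
      exact (Int.fract_lt_one _).le
    · show c + c₁ + om b₁' b' ∈ Metric.closedBall (0 : ℝ) 1
      have h5 : c + c₁ + om b₁' b' = Int.fract (c + om b₁' b') := by
        rw [hc₁, Int.cast_neg, ← Int.self_sub_floor]; ring
      rw [mem_closedBall_zero_iff, h5, Real.norm_eq_abs, abs_of_nonneg (Int.fract_nonneg _)]
      exact (Int.fract_lt_one _).le
    · show sec x * psi (S * mp (Int.castRingHom ℝ) δ, (b' + b₁', c + c₁ + om b₁' b')) = _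
      rw [map_mul, ← mul_assoc, ← hg₁, hc, map_mul, mp_ioS, mp_heS, psi]
      have h6 : (fun i => (Int.castRingHom ℝ) (b₁ i)) = b₁' := by rw [hb₁']; rfl
      rw [h6]
      have h7 : ioS S * heS b c * (ioS (mp (Int.castRingHom ℝ) δ) * heS b₁' ((Int.castRingHom ℝ) c₁)) =
          ioS (S * mp (Int.castRingHom ℝ) δ) * heS (b' + b₁') (c + c₁ + om b₁' b') := by
        rw [mul_assoc, ← mul_assoc (heS b c), heS_ioS, ← hb', mul_assoc, heS_mul, ← mul_assoc,
          ← ioS_mul]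
        rfl
      rw [mul_assoc, h7]

end cover

section step

variable {l : Type} [Fintype l] [DecidableEq l]

/-- right invariance of the Haar measure -/
theorem rightInv_of_triv {m : Type} [Fintype m] [DecidableEq m]
    [MeasurableSpace (symplecticGroup m ℝ)] [BorelSpace (symplecticGroup m ℝ)]
    (h : ∀ f : symplecticGroup m ℝ →* (NNReal)ˣ, f = 1)
    (μ : Measure (symplecticGroup m ℝ)) [IsHaarMeasure μ] : IsMulRightInvariant μ :=
  H515.rightInv_of_modChar μ fun g => H515.modChar_of_perfect h g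

theorem isLattice_step (h : ∀ f : symplecticGroup (Option l) ℝ →* (NNReal)ˣ, f = 1)
    (hl : H515.IsLattice (spZ l)) : H515.IsLattice (spZ (Option l)) := by
  borelize ↥(symplecticGroup l ℝ)
  borelize ↥(symplecticGroup (Option l) ℝ)
  obtain ⟨μ, hμ⟩ : ∃ μ : Measure (symplecticGroup l ℝ), μ = haar := ⟨_, rfl⟩
  have hH : IsHaarMeasure μ := by rw [hμ]; infer_instance
  obtain ⟨ν, hν⟩ : ∃ ν : Measure (symplecticGroup (Option l) ℝ), ν = haar := ⟨_, rfl⟩
  have hH' : IsHaarMeasure ν := by rw [hν]; infer_instance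
  have hr := rightInv_of_triv h ν
  have hd := disc_spZ (l := Option l)
  obtain ⟨F, hFm, hF1, -, hF2, -⟩ := hl.exists_fdom_right μ
  refine H515.isLattice_of_cover (spZ (Option l)) ν
    (haar_image_lt μ ν (meas_box hFm) (box_lt μ hF1)) fun g => ?_
  obtain ⟨γ, hγ⟩ := cover (F := F) (fun S => by
    obtain ⟨v, hv, -⟩ := hF2 S
    obtain ⟨δ, hδ⟩ := v.2
    exact ⟨δ, by rw [hδ]; exact hv⟩) g
  exact ⟨⟨_, ⟨γ, rfl⟩⟩, hγ⟩

theorem isLattice_empty {m : Type} [Fintype m] [DecidableEq m] [IsEmpty m] :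
    H515.IsLattice (spZ m) := by
  borelize ↥(symplecticGroup m ℝ)
  obtain ⟨ν, hν⟩ : ∃ ν : Measure (symplecticGroup m ℝ), ν = haar := ⟨_, rfl⟩
  have hH' : IsHaarMeasure ν := by rw [hν]; infer_instance
  have hr := rightInv_of_triv (m := m) (fun f => hom_triv_empty f) ν
  have hd := disc_spZ (l := m)
  have hs : Subsingleton (symplecticGroup m ℝ) :=
    ⟨fun a b => Subtype.ext (Subsingleton.elim _ _)⟩
  refine H515.isLattice_of_cover (spZ m) ν (F := univ) ?_ fun g => ⟨1, trivial⟩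
  exact (Set.toFinite _).isCompact.measure_lt_top

end step

end Vale.Agent.P092.H759
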