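import Vale.Agent.P092.H759.SpG

/-!
P092 (helper759), block [P-LAT].  Part 8: subgroups of finite index of lattices; transport to
subgroups of `SL` given by a form.
-/

set_option linter.all false

open Matrix MeasureTheory MeasureTheory.Measure Set Filter Topology

namespace Vale.Agent.P092.H759

section fi

variable {E : Type} [Group E] [TopologicalSpace E] [IsTopologicalGroup E] [LocallyCompactSpace E]
  [SecondCountableTopology E] [T2Space E]

/-- Subgroups of finite index of lattices are lattices. -/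
theorem isLattice_of_finiteIndex {Λ Λ' : Subgroup E} (h : H515.IsLattice Λ) (hle : Λ' ≤ Λ)
    [hfi : (Λ'.subgroupOf Λ).FiniteIndex] : H515.IsLattice Λ' := by
  borelize E
  obtain ⟨μ, hμ⟩ : ∃ μ : Measure E, μ = haar := ⟨_, rfl⟩
  have hH : IsHaarMeasure μ := by rw [hμ]; infer_instance
  have hr := h.rightInv μ
  have hd := h.disc
  have hd' : DiscreteTopology Λ' := by
    have h1 : Continuous (Subgroup.inclusion hle) :=
      continuous_subtype_val.subtype_mk _
    exact DiscreteTopology.of_continuous_injective h1 (Subgroup.inclusion_injective hle)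
  obtain ⟨F, hFm, hF1, -, hF2, -⟩ := h.exists_fdom_right μ
  have hfin : Finite (Λ ⧸ Λ'.subgroupOf Λ) := Subgroup.finite_quotient_of_finiteIndex
  refine H515.isLattice_of_cover Λ' μ
    (F := ⋃ q : Λ ⧸ Λ'.subgroupOf Λ, (fun x => x * ((Quotient.out q : Λ) : E)⁻¹) ⁻¹' F) ?_
    fun x => ?_
  · cases nonempty_fintype (Λ ⧸ Λ'.subgroupOf Λ)
    refine (measure_iUnion_fintype_le _ _).trans_lt (ENNReal.sum_lt_top.2 fun q _ => ?_)
    rw [measure_preimage_mul_right]
    exact hF1
  · obtain ⟨v, hv, -⟩ := hF2 x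
    obtain ⟨q, hq⟩ : ∃ q : Λ ⧸ Λ'.subgroupOf Λ, q = ((v⁻¹ : Λ) : Λ ⧸ Λ'.subgroupOf Λ) := ⟨_, rfl⟩
    have h1 : ((Quotient.out q : Λ) : Λ ⧸ Λ'.subgroupOf Λ) = ((v⁻¹ : Λ) : Λ ⧸ Λ'.subgroupOf Λ) := by
      rw [← hq]; exact Quotient.out_eq q
    have h2 : (v : E) * ((Quotient.out q : Λ) : E) ∈ Λ' := by
      have h3 := QuotientGroup.eq.1 h1.symm
      rw [inv_inv] at h3
      exact h3
    refine ⟨⟨_, h2⟩, mem_iUnion.2 ⟨q, ?_⟩⟩
    show x * ((v : E) * ((Quotient.out q : Λ) : E)) * ((Quotient.out q : Λ) : E)⁻¹ ∈ F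
    rw [← mul_assoc, mul_inv_cancel_right]
    exact hv

end fi

section tr

variable {l : Type} [Fintype l] [DecidableEq l] {n : Type} [Fintype n] [DecidableEq n]

/-- `Sp` as a subgroup of `SL` given by a form -/
noncomputable def trE (e : n ≃ l ⊕ l) (G : Subgroup (SpecialLinearGroup n ℝ))
    (hG : ∀ g, g ∈ G ↔ g.1 * (J l ℝ).submatrix e e * g.1.transpose = (J l ℝ).submatrix e e) :
    symplecticGroup l ℝ ≃* G where
  toFun A := ⟨⟨A.1.submatrix e e, by
      rw [Matrix.det_submatrix_equiv_self]; exact SymplecticGroup.det_eq_one A.2⟩, by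
    refine (hG _).2 ?_
    have h := SymplecticGroup.mem_iff.1 A.2
    show A.1.submatrix e e * _ * (A.1.submatrix e e)ᵀ = _
    rw [Matrix.transpose_submatrix, Matrix.submatrix_mul_equiv, Matrix.submatrix_mul_equiv, h]⟩
  invFun g := ⟨g.1.1.submatrix e.symm e.symm, by
    rw [SymplecticGroup.mem_iff]
    have h1 := (hG g.1).1 g.2
    have h2 : J l ℝ = ((J l ℝ).submatrix e e).submatrix e.symm e.symm := by
      rw [Matrix.submatrix_submatrix]; simp
    rw [h2, Matrix.transpose_submatrix, Matrix.submatrix_mul_equiv, Matrix.submatrix_mul_equiv, h1]⟩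
  left_inv A := by
    apply Subtype.ext
    show (A.1.submatrix e e).submatrix e.symm e.symm = A.1
    rw [Matrix.submatrix_submatrix]; simp
  right_inv g := by
    apply Subtype.ext
    apply Subtype.ext
    show (g.1.1.submatrix e.symm e.symm).submatrix e e = g.1.1
    rw [Matrix.submatrix_submatrix]; simp
  map_mul' A B := by
    apply Subtype.ext
    apply Subtype.ext
    exact (Matrix.submatrix_mul_equiv A.1 B.1 _ _ _).symm

variable (e : n ≃ l ⊕ l) (G : Subgroup (SpecialLinearGroup n ℝ))
    (hG : ∀ g, g ∈ G ↔ g.1 * (J l ℝ).submatrix e e * g.1.transpose = (J l ℝ).submatrix e e)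

theorem trE_apply (A : symplecticGroup l ℝ) : (trE e G hG A).1.1 = A.1.submatrix e e := rfl

theorem cont_trE : Continuous (trE e G hG) := by
  refine continuous_induced_rng.2 (continuous_induced_rng.2 ?_)
  exact Continuous.matrix_submatrix continuous_subtype_val _ _

theorem cont_trE_symm : Continuous (trE e G hG).symm := by
  refine cont_sp ?_
  have h : Continuous fun g : G => g.1.1 := continuous_subtype_val.comp continuous_subtype_val
  exact h.matrix_submatrix _ _

include hG in
theorem isClosed_G : IsClosed (G : Set (SpecialLinearGroup n ℝ)) := by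
  have h : (G : Set (SpecialLinearGroup n ℝ)) =
      {g | g.1 * (J l ℝ).submatrix e e * g.1.transpose = (J l ℝ).submatrix e e} := by
    ext g; exact hG g
  rw [h]
  exact isClosed_eq (by fun_prop) continuous_const

end tr

end Vale.Agent.P092.H759
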