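import Vale.Agent.P092.H759.SpQ

/-!
P092 (helper759), block [P-LAT].  Symplectic groups are generated by transvections; density of
`Sp_{2n}(A)` in products.
-/

set_option linter.all false

open Matrix Set Filter Topology

namespace Vale.Agent.P092.H759

section gen

variable {l : Type} [Fintype l] [DecidableEq l] {K : Type} [Field K]

theorem heS_transv (b : l ⊕ l → K) :
    heS (-b) (0 : K) = tS (e0 + emb b) 1 * (tS (emb b) (-1) * tS e0 (-1)) := by
  refine sp_ext fun y => ?_
  rw [mul_mulVec, mul_mulVec, heS_mulVec, tS_mulVec, tS_mulVec, tS_mulVec]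
  simp only [om_add_left, om_add_right, om_smul_left, om_smul_right, om_self, om_e0, om_emb,
    emb_inr, prj_e0, prj_emb, om_zero_right, om_neg_right]
  refine vec_ext ?_ ?_ ?_
  · simp only [Pi.add_apply, Pi.smul_apply, e0_inl, e0_inr, emb_inl, emb_inr, smul_eq_mul]
    rw [om_swap b (prj y)]
    ring
  · simp
  · simp only [prj_add, prj_smul, prj_e0, prj_emb, smul_zero, add_zero, zero_add, mul_zero,
      neg_zero, Pi.smul_apply, Pi.add_apply]
    funext i
    simp only [Pi.add_apply, Pi.smul_apply, Pi.neg_apply, smul_eq_mul]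
    ring

theorem heS_zero_left' (c : K) : heS (0 : l ⊕ l → K) c = tS e0 (-c) := by
  refine sp_ext fun y => ?_
  rw [heS_mulVec, tS_mulVec, om_zero_right, om_e0, emb_zero, add_zero, zero_smul, add_zero,
    smul_smul]
  congr 2
  ring

theorem ioS_tS (w : l ⊕ l → K) (c : K) : ioS (tS w c) = tS (emb w) c := by
  refine sp_ext fun y => ?_
  rw [ioS_mulVec, tS_mulVec, tS_mulVec, emb_add, emb_smul, om_emb]
  nth_rw 5 [decomp y]
  abel

/-- a subgroup containing the transvections is everything: one step -/
theorem gen_step (hl : ∀ S : Subgroup (symplecticGroup l K), (∀ v c, tS v c ∈ S) → S = ⊤)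
    (S : Subgroup (symplecticGroup (Option l) K)) (hS : ∀ v c, tS v c ∈ S) : S = ⊤ := by
  have h1 : ∀ A : symplecticGroup l K, ioS A ∈ S := by
    have h2 := hl (S.comap (ioH l K)) fun v c => by
      show ioS (tS v c) ∈ S
      rw [ioS_tS]; exact hS _ _
    intro A
    have h3 : A ∈ S.comap (ioH l K) := by rw [h2]; trivial
    exact h3
  have h2 : ∀ b (c : K), heS b c ∈ S := by
    intro b c
    have h3 : heS b c = heS (- -b) 0 * heS 0 c := by
      rw [neg_neg, heS_mul, om_zero_left, add_zero, add_zero, zero_add]
    rw [h3, heS_transv, heS_zero_left']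
    exact S.mul_mem (S.mul_mem (hS _ _) (S.mul_mem (hS _ _) (hS _ _))) (hS _ _)
  have h3 : ∀ x : Option l ⊕ Option l → K, sec x ∈ S := fun x => S.mul_mem (hS _ _) (hS _ _)
  have h4 : ∀ g : symplecticGroup (Option l) K, (g.1 *ᵥ e0) (Sum.inl none) ≠ 0 → g ∈ S := by
    intro g hg
    obtain ⟨A, b, c, h⟩ := exists_coord' g hg
    rw [h]
    exact S.mul_mem (h3 _) (S.mul_mem (h1 _) (h2 _ _))
  rw [Subgroup.eq_top_iff']
  intro g
  by_cases hg : (g.1 *ᵥ e0) (Sum.inl none) = 0
  · obtain ⟨w, hw, how⟩ := exists_move (mulVec_ne_zero g e0_ne_zero)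
    have h5 := h4 (tS w 1 * g) (by
      rw [mul_mulVec, tS_mulVec, Pi.add_apply, hg, zero_add, Pi.smul_apply, one_mul, smul_eq_mul]
      exact mul_ne_zero how hw)
    have h6 := S.mul_mem (S.inv_mem (hS w 1)) h5
    rwa [inv_mul_cancel_left] at h6
  · exact h4 g hg

end gen


section gen2

variable {l m : Type} [Fintype l] [DecidableEq l] [Fintype m] [DecidableEq m] {K : Type} [Field K]

theorem rx_tS (e : l ≃ m) (v : m ⊕ m → K) (c : K) :
    rx e (tS v c) = tS (fun i => v (Equiv.sumCongr e e i)) c := by
  have h1 : ∀ (A : symplecticGroup m K) (y : l ⊕ l → K), (rx e A).1 *ᵥ y =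
      fun i => (A.1 *ᵥ fun j => y ((Equiv.sumCongr e e).symm j)) (Equiv.sumCongr e e i) := by
    intro A y
    funext i
    show (A.1.submatrix (Equiv.sumCongr e e) (Equiv.sumCongr e e) *ᵥ y) i = _
    rw [Matrix.submatrix_mulVec_equiv]
    rfl
  have h2 : ∀ (u v : m ⊕ m → K), om (fun i => u (Equiv.sumCongr e e i))
      (fun i => v (Equiv.sumCongr e e i)) = om u v := by
    intro u v
    rw [om_eq, om_eq]
    exact e.sum_comp fun i => u (Sum.inr i) * v (Sum.inl i) - u (Sum.inl i) * v (Sum.inr i)
  refine sp_ext fun y => ?_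
  rw [h1, tS_mulVec, tS_mulVec]
  have h3 : (fun i => (fun j => y ((Equiv.sumCongr e e).symm j)) (Equiv.sumCongr e e i)) = y := by
    funext i; simp
  have h4 := h2 v (fun j => y ((Equiv.sumCongr e e).symm j))
  rw [h3] at h4
  rw [h4]
  funext i
  simp

/-- **A subgroup containing the transvections is everything.** -/
theorem eq_top_of_tS (l : Type) [Fintype l] [DecidableEq l]
    (S : Subgroup (symplecticGroup l K)) (hS : ∀ v c, tS v c ∈ S) : S = ⊤ := by
  classical
  have key : ∀ {l m : Type} [Fintype l] [DecidableEq l] [Fintype m] [DecidableEq m] (e : l ≃ m),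
      (∀ S : Subgroup (symplecticGroup l K), (∀ v c, tS v c ∈ S) → S = ⊤) →
      ∀ S : Subgroup (symplecticGroup m K), (∀ v c, tS v c ∈ S) → S = ⊤ := by
    intro l m _ _ _ _ e h S hS
    have h1 := h (S.comap (rx e.symm)) fun v c => by
      rw [Subgroup.mem_comap, rx_tS]; exact hS _ _
    rw [Subgroup.eq_top_iff']
    intro g
    have h2 : rx e g ∈ S.comap (rx e.symm) := by rw [h1]; trivial
    rw [Subgroup.mem_comap, rx_rx] at h2
    exact h2
  have h : ∀ n : ℕ, ∀ S : Subgroup (symplecticGroup (Fin n) K), (∀ v c, tS v c ∈ S) → S = ⊤ := by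
    intro n
    induction n with
    | zero =>
      intro S hS
      rw [Subgroup.eq_top_iff']
      intro g
      have : g = 1 := Subtype.ext (Subsingleton.elim _ _)
      rw [this]
      exact S.one_mem
    | succ n ih => exact key (finSuccEquiv n).symm (fun S hS => gen_step ih S hS)
  exact key (Fintype.equivFin l).symm (h _) S hS

end gen2

section topo

variable {l : Type} [Fintype l] [DecidableEq l] {K : Type} [Field K] [TopologicalSpace K]
  [IsTopologicalRing K]

instance topg_sp : IsTopologicalGroup (symplecticGroup l K) where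
  continuous_mul := by
    refine Continuous.subtype_mk ?_ _
    exact (continuous_subtype_val.comp continuous_fst).mul (continuous_subtype_val.comp continuous_snd)
  continuous_inv := by
    refine continuous_induced_rng.2 ?_
    have : (Subtype.val ∘ fun A : symplecticGroup l K => A⁻¹) =
        fun A : symplecticGroup l K => (-J l K) * (A.1)ᵀ * J l K := by
      funext A; exact SymplecticGroup.coe_inv A
    rw [this]
    fun_prop

theorem cont_sp'' {X : Type} [TopologicalSpace X] {f : X → symplecticGroup l K}
    (h : ∀ y : l ⊕ l → K, Continuous fun x => (f x).1 *ᵥ y) : Continuous f := by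
  refine continuous_induced_rng.2 (continuous_matrix fun i j => ?_)
  have h1 : (fun x => (f x).1 i j) = fun x => ((f x).1 *ᵥ Pi.single j 1) i := by
    funext x; rw [Matrix.mulVec_single_one]; rfl
  have h2 : Continuous fun x => (f x).1 i j := by
    rw [h1]
    exact (continuous_apply i).comp (h _)
  exact h2

theorem cont_om' : Continuous fun p : (l ⊕ l → K) × (l ⊕ l → K) => om p.1 p.2 := by
  unfold om
  refine Continuous.dotProduct continuous_fst (Continuous.matrix_mulVec continuous_const continuous_snd)

theorem cont_tS' : Continuous fun p : (l ⊕ l → K) × K => tS p.1 p.2 := by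
  refine cont_sp'' fun y => ?_
  simp only [tS_mulVec]
  have h : Continuous fun p : (l ⊕ l → K) × K => om p.1 y :=
    cont_om'.comp (continuous_fst.prodMk continuous_const)
  exact continuous_const.add ((continuous_snd.mul h).smul continuous_fst)

end topo

section dens

variable {I : Type} [Fintype I] [DecidableEq I] {K : I → Type} [∀ i, Field (K i)]
  [∀ i, TopologicalSpace (K i)] [∀ i, IsTopologicalRing (K i)] {A : Type} [CommRing A]
  (f : ∀ i, A →+* K i) (l : Type) [Fintype l] [DecidableEq l]

/-- **Density**: if `A` is dense in `∏ K_i` then `Sp(A)` is dense in `∏ Sp(K_i)`. -/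
theorem dense_sp (hf : DenseRange fun (a : A) i => f i a) :
    DenseRange fun (g : symplecticGroup l A) i => mp (f i) g := by
  set F : symplecticGroup l A →* ∀ i, symplecticGroup l (K i) :=
    MonoidHom.pi fun i => mp (f i) with hF
  set S := F.range.topologicalClosure with hS
  have h1 : ∀ w : Option (l ⊕ l) → ∀ i, K i,
      (fun i => tS (fun j => w (some j) i) (w none i)) ∈ S := by
    intro w
    have hcont : Continuous fun (w : Option (l ⊕ l) → ∀ i, K i) i =>
        (tS (fun j => w (some j) i) (w none i) : symplecticGroup l (K i)) := by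
      refine continuous_pi fun i => ?_
      have h2 : Continuous fun w : Option (l ⊕ l) → ∀ i, K i => fun j => w (some j) i :=
        continuous_pi fun j => (continuous_apply i).comp (continuous_apply (some j))
      have h3 : Continuous fun w : Option (l ⊕ l) → ∀ i, K i => w none i :=
        (continuous_apply i).comp (continuous_apply none)
      exact cont_tS'.comp (h2.prodMk h3)
    have hcl : IsClosed {w : Option (l ⊕ l) → ∀ i, K i |
        (fun i => tS (fun j => w (some j) i) (w none i) : ∀ i, symplecticGroup l (K i)) ∈ S} :=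
      (F.range.isClosed_topologicalClosure).preimage hcont
    have hd : DenseRange (Pi.map fun (_ : Option (l ⊕ l)) (a : A) i => f i a) :=
      DenseRange.piMap fun _ => hf
    refine hd.induction_on w hcl fun x => ?_
    refine F.range.le_topologicalClosure ⟨tS (fun j => x (some j)) (x none), ?_⟩
    funext i
    exact mp_tS (f i) _ _
  have h2 : ∀ (i : I) (g : symplecticGroup l (K i)), Pi.mulSingle i g ∈ S := by
    intro i g
    have h3 : S.comap (MonoidHom.mulSingle (fun i => symplecticGroup l (K i)) i) = ⊤ := by
      refine eq_top_of_tS l _ fun v c => ?_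
      rw [Subgroup.mem_comap]
      have h4 : (MonoidHom.mulSingle (fun i => symplecticGroup l (K i)) i) (tS v c) =
          fun i' => tS (fun j => (Pi.single i (v j) : ∀ i, K i) i') ((Pi.single i c : ∀ i, K i) i') := by
        funext i'
        rw [MonoidHom.mulSingle_apply]
        by_cases hl : i' = i
        · subst hl
          simp only [Pi.mulSingle_eq_same, Pi.single_eq_same]
        · rw [Pi.mulSingle_eq_of_ne hl]
          refine sp_ext fun y => ?_
          rw [one_mulVec', tS_mulVec, Pi.single_eq_of_ne hl, zero_mul, zero_smul, add_zero]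
      rw [h4]
      exact h1 fun o => o.elim (Pi.single i c) fun j => Pi.single i (v j)
    have h5 : g ∈ S.comap (MonoidHom.mulSingle (fun i => symplecticGroup l (K i)) i) := by
      rw [h3]; exact Subgroup.mem_top g
    exact h5
  intro x
  have h6 : x ∈ S := Subgroup.pi_mem_of_mulSingle_mem x fun i => h2 i (x i)
  exact h6

end dens

end Vale.Agent.P092.H759
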