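import Vale.Agent.P092.H759.SpN1
import Vale.Agent.P092.H387.ExN2

/-!
P092 (helper759), block [P-LAT].  `Sp_{2n}` over local fields: topology, no characters, the compact
open subgroup `Sp_{2n}(ℤ_p)`; `Sp_{2n}(ℤ[1/N]) ∩ ∏ Sp_{2n}(ℤ_p) = Sp_{2n}(ℤ)`.
-/

set_option linter.all false

open Matrix Set Filter Topology MeasureTheory

namespace Vale.Agent.P092.H759

section topo

variable {l : Type} [Fintype l] [DecidableEq l] {K : Type} [NontriviallyNormedField K]
  [ProperSpace K]

instance lc_mat' (m : Type) [Fintype m] : LocallyCompactSpace (Matrix m m K) :=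
  inferInstanceAs (LocallyCompactSpace (m → m → K))

instance sc_mat' (m : Type) [Fintype m] : SecondCountableTopology (Matrix m m K) :=
  inferInstanceAs (SecondCountableTopology (m → m → K))

theorem isClosed_sp' : IsClosed (symplecticGroup l K : Set (Matrix (l ⊕ l) (l ⊕ l) K)) := by
  have h : (symplecticGroup l K : Set (Matrix (l ⊕ l) (l ⊕ l) K)) =
      {A | A * J l K * Aᵀ = J l K} := by
    ext A; exact SymplecticGroup.mem_iff
  rw [h]
  exact isClosed_eq (by fun_prop) continuous_const

instance lc_sp : LocallyCompactSpace (symplecticGroup l K) :=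
  isClosed_sp'.isClosedEmbedding_subtypeVal.locallyCompactSpace

instance sc_sp : SecondCountableTopology (symplecticGroup l K) :=
  TopologicalSpace.Subtype.secondCountableTopology _

instance t2_sp : T2Space (symplecticGroup l K) :=
  inferInstanceAs (T2Space {A : Matrix (l ⊕ l) (l ⊕ l) K // A ∈ symplecticGroup l K})

end topo

section triv

/-- `Sp` has no characters -/
theorem hom_triv (l : Type) [Fintype l] [DecidableEq l] {K : Type} [Field K] [CharZero K]
    {C : Type} [CommGroup C] (f : symplecticGroup l K →* C) : f = 1 := by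
  have h : ∀ n : ℕ, ∀ f : symplecticGroup (Fin n) K →* C, f = 1 := by
    intro n
    induction n with
    | zero => exact fun f => hom_triv_empty f
    | succ n ih =>
      intro f
      have h5 := hom_triv_step (f.comp (rx (finSuccEquiv n))) ih
      ext A
      have h6 := DFunLike.congr_fun h5 (rx (finSuccEquiv n).symm A)
      rw [MonoidHom.comp_apply] at h6
      have h7 : rx (finSuccEquiv n) (rx (finSuccEquiv n).symm A) = A :=
        rx_rx (finSuccEquiv n).symm A
      rw [h7] at h6
      rw [h6]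
      rfl
  have h5 := h _ (f.comp (rx (Fintype.equivFin l)))
  ext A
  have h6 := DFunLike.congr_fun h5 (rx (Fintype.equivFin l).symm A)
  rw [MonoidHom.comp_apply] at h6
  have h7 : rx (Fintype.equivFin l) (rx (Fintype.equivFin l).symm A) = A :=
    rx_rx (Fintype.equivFin l).symm A
  rw [h7] at h6
  rw [h6]
  rfl

theorem rightInv_sp {l : Type} [Fintype l] [DecidableEq l] {K : Type} [NontriviallyNormedField K]
    [ProperSpace K] [CharZero K] [MeasurableSpace (symplecticGroup l K)]
    [BorelSpace (symplecticGroup l K)] (μ : Measure (symplecticGroup l K)) [μ.IsHaarMeasure] :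
    μ.IsMulRightInvariant :=
  H515.rightInv_of_modChar μ fun g => H515.modChar_of_perfect (fun f => hom_triv l f) g

end triv

section Kp

variable (l : Type) [Fintype l] [DecidableEq l] (p : ℕ) [Fact p.Prime]

theorem norm_entry_mul {A B : Matrix (l ⊕ l) (l ⊕ l) ℚ_[p]} (hA : ∀ i j, ‖A i j‖ ≤ 1)
    (hB : ∀ i j, ‖B i j‖ ≤ 1) (i j : l ⊕ l) : ‖(A * B) i j‖ ≤ 1 := by
  rw [Matrix.mul_apply]
  refine IsUltrametricDist.norm_sum_le_of_forall_le_of_nonneg zero_le_one fun k _ => ?_
  rw [norm_mul]
  exact mul_le_one₀ (hA i k) (norm_nonneg _) (hB k j)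

/-- `Sp_{2n}(ℤ_p)` -/
noncomputable def Kq : Subgroup (symplecticGroup l ℚ_[p]) where
  carrier := {g | ∀ i j, ‖g.1 i j‖ ≤ 1}
  mul_mem' {a b} ha hb := norm_entry_mul l p ha hb
  one_mem' := by
    intro i j
    show ‖(1 : Matrix (l ⊕ l) (l ⊕ l) ℚ_[p]) i j‖ ≤ 1
    rw [Matrix.one_apply]
    split_ifs <;> simp
  inv_mem' {a} ha := by
    have hJ : ∀ i j, ‖(J l ℚ_[p]) i j‖ ≤ 1 := by
      rintro (i | i) (j | j) <;> simp only [J, Matrix.fromBlocks_apply₁₁,
        Matrix.fromBlocks_apply₁₂, Matrix.fromBlocks_apply₂₁, Matrix.fromBlocks_apply₂₂,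
        Matrix.zero_apply, Matrix.neg_apply, norm_neg, norm_zero, zero_le_one, Matrix.one_apply] <;>
        split_ifs <;> simp
    intro i j
    rw [SymplecticGroup.coe_inv]
    refine norm_entry_mul l p (norm_entry_mul l p (fun i j => ?_) fun i j => ha j i) hJ i j
    rw [Matrix.neg_apply, norm_neg]
    exact hJ i j

theorem mem_Kq {g : symplecticGroup l ℚ_[p]} : g ∈ Kq l p ↔ ∀ i j, ‖g.1 i j‖ ≤ 1 := Iff.rfl

theorem isOpen_Kq : IsOpen (Kq l p : Set (symplecticGroup l ℚ_[p])) := by
  have h : (Kq l p : Set (symplecticGroup l ℚ_[p])) =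
      ⋂ i, ⋂ j, {g | g.1 i j ∈ Metric.closedBall (0 : ℚ_[p]) 1} := by
    ext g
    simp only [mem_iInter, mem_setOf_eq, mem_closedBall_zero_iff]
    rfl
  rw [h]
  refine isOpen_iInter_of_finite fun i => isOpen_iInter_of_finite fun j => ?_
  have h1 : Continuous fun g : symplecticGroup l ℚ_[p] => g.1 i j :=
    (continuous_apply j).comp ((continuous_apply i).comp continuous_subtype_val)
  exact (IsUltrametricDist.isOpen_closedBall (0 : ℚ_[p]) one_ne_zero).preimage h1

theorem isCompact_Kq : IsCompact (Kq l p : Set (symplecticGroup l ℚ_[p])) := by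
  have hc := (isClosed_sp' (l := l) (K := ℚ_[p])).isClosedEmbedding_subtypeVal
  have h1 : IsCompact (Set.pi univ fun _ => Set.pi univ fun _ => Metric.closedBall (0 : ℚ_[p]) 1 :
      Set (l ⊕ l → l ⊕ l → ℚ_[p])) :=
    isCompact_univ_pi fun _ => isCompact_univ_pi fun _ => isCompact_closedBall _ _
  have h2 : IsCompact (Subtype.val ⁻¹' (Set.pi univ fun _ => Set.pi univ fun _ =>
      Metric.closedBall (0 : ℚ_[p]) 1 : Set (Matrix (l ⊕ l) (l ⊕ l) ℚ_[p])) :
      Set (symplecticGroup l ℚ_[p])) := hc.isCompact_preimage h1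
  refine h2.of_isClosed_subset ?_ ?_
  · exact (Kq l p).isClosed_of_isOpen (isOpen_Kq l p)
  · intro g hg
    exact fun i _ j _ => mem_closedBall_zero_iff.2 (hg i j)

end Kp

section N

open H387 H387.N

variable (l : Type) [Fintype l] [DecidableEq l] (N : ℕ) [hN : Fact (1 < N)]

/-- The group `Sp_{2n}` of the completion. -/
abbrev SK (i : Option (PF N)) : Type := symplecticGroup l (KK N i)

/-- The diagonal map `Sp_{2n}(ℤ[1/N]) → ∏ Sp_{2n}(K_i)`. -/
noncomputable def dia : symplecticGroup l (Zi N) →* ∀ i : Option (PF N), SK l N i :=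
  MonoidHom.pi fun i => mp (H387.N.emb N i)

theorem mp_inj {R S : Type} [CommRing R] [CommRing S] {f : R →+* S} (hf : Function.Injective f) :
    Function.Injective (mp (l := l) f) := by
  intro A B h
  apply Subtype.ext
  ext i j
  exact hf (congrArg (fun C : symplecticGroup l S => C.1 i j) h)

theorem dia_injective_apply (i : Option (PF N)) : Function.Injective fun g => dia l N g i :=
  mp_inj l (emb_injective N i)

/-- The projection to the product of all factors but one is dense. -/
theorem dense_dia (j : Option (PF N)) :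
    DenseRange fun (g : symplecticGroup l (Zi N)) (i : {i : Option (PF N) // i ≠ j}) =>
      dia l N g i.1 :=
  dense_sp (fun i : {i : Option (PF N) // i ≠ j} => H387.N.emb N i.1) l (denseRange_away N j)

/-- The real component. -/
noncomputable def dR : symplecticGroup l (Zi N) →* symplecticGroup l ℝ :=
  mp (show Zi N →+* ℝ from H387.N.emb N none)

/-- The `p`-adic component. -/
noncomputable def dP (p : PF N) : symplecticGroup l (Zi N) →* symplecticGroup l ℚ_[p.1] :=
  mp (show Zi N →+* ℚ_[p.1] from H387.N.emb N (some p))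

theorem dR_injective : Function.Injective (dR l N) := dia_injective_apply l N none

theorem dR_int (δ : symplecticGroup l ℤ) :
    dR l N (mp (Int.castRingHom (Zi N)) δ) = mp (Int.castRingHom ℝ) δ := by
  apply Subtype.ext
  ext i j
  exact RingHom.congr_fun (RingHom.ext_int ((show Zi N →+* ℝ from H387.N.emb N none).comp
    (Int.castRingHom (Zi N))) (Int.castRingHom ℝ)) (δ.1 i j)

theorem dP_int (p : PF N) (δ : symplecticGroup l ℤ) :
    dP l N p (mp (Int.castRingHom (Zi N)) δ) ∈ Kq l (p : ℕ) := by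
  rw [mem_Kq]
  intro i j
  have h1 : (dP l N p (mp (Int.castRingHom (Zi N)) δ)).1 i j = ((δ.1 i j : ℤ) : ℚ_[p.1]) :=
    RingHom.congr_fun (RingHom.ext_int ((show Zi N →+* ℚ_[p.1] from H387.N.emb N (some p)).comp
      (Int.castRingHom (Zi N))) (Int.castRingHom ℚ_[p.1])) (δ.1 i j)
  rw [h1]
  exact Padic.norm_int_le_one _

/-- `Sp(ℤ[1/N]) ∩ ∏ Sp(ℤ_p) = Sp(ℤ)` -/
theorem exists_spZ {γ : symplecticGroup l (Zi N)} (h : ∀ p : PF N, dP l N p γ ∈ Kq l (p : ℕ)) :
    ∃ δ : symplecticGroup l ℤ, mp (Int.castRingHom (Zi N)) δ = γ := by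
  have h' : ∀ (p : PF N) i j, ‖H387.N.emb N (some p) (γ.1 i j)‖ ≤ 1 := fun p i j => h p i j
  choose m hm using fun i j => exists_intN N (a := γ.1 i j) (fun p => h' p i j)
  have hM : (Matrix.of m).map (Int.castRingHom (Zi N)) = γ.1 := by
    ext i j
    exact (hm i j).symm
  have hinj : Function.Injective (Int.castRingHom (Zi N)) := by
    intro a b hab
    have h1 := congrArg (H387.N.emb N none) hab
    simpa using h1
  have hsp : Matrix.of m ∈ symplecticGroup l ℤ := by
    rw [SymplecticGroup.mem_iff]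
    have h1 := SymplecticGroup.mem_iff.1 γ.2
    rw [← hM] at h1
    have h2 : (Matrix.of m * J l ℤ * (Matrix.of m)ᵀ).map (Int.castRingHom (Zi N)) =
        (J l ℤ).map (Int.castRingHom (Zi N)) := by
      rw [Matrix.map_mul, Matrix.map_mul, Matrix.transpose_map, Matrix.map_J]
      exact h1
    ext i j
    exact hinj (congrFun (congrFun h2 i) j)
  exact ⟨⟨Matrix.of m, hsp⟩, Subtype.ext hM⟩

end N

end Vale.Agent.P092.H759
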