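import Vale.Agent.P092.H759.SpN2
import Vale.Agent.P092.H387.Ex6

/-!
P092 (helper759), block [P-LAT].  `Sp_{2n}(ℤ[1/N])` is a lattice in the product of the groups
`Sp_{2n}` of the completions.
-/

set_option linter.all false

open Matrix Set Filter Topology MeasureTheory

namespace Vale.Agent.P092.H759

open H387 H387.N

variable (l : Type) [Fintype l] [DecidableEq l] (N : ℕ) [hN : Fact (1 < N)]

/-- The product set `F × ∏ Sp(ℤ_p)`. -/
def DD (F : Set (symplecticGroup l ℝ)) : ∀ i : Option (PF N), Set (SK l N i)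
  | none => F
  | some p => (Kq l (p : ℕ) : Set (symplecticGroup l ℚ_[p.1]))

theorem disc_dia : DiscreteTopology (dia l N).range := by
  apply discreteTopology_of_isOpen_singleton_one
  rw [isOpen_induced_iff]
  obtain ⟨W, hW⟩ : ∃ W : Set (symplecticGroup l ℝ), W = ⋂ i, ⋂ j,
    {g | ‖g.1 i j - (1 : Matrix (l ⊕ l) (l ⊕ l) ℝ) i j‖ < 1} := ⟨_, rfl⟩
  have hmemW : ∀ g, g ∈ W ↔ ∀ i j, ‖g.1 i j - (1 : Matrix (l ⊕ l) (l ⊕ l) ℝ) i j‖ < 1 := by
    intro g
    rw [hW]
    simp only [mem_iInter, mem_setOf_eq]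
  have hA : IsOpen W := by
    rw [hW]
    refine isOpen_iInter_of_finite fun i => isOpen_iInter_of_finite fun j => ?_
    refine isOpen_lt ?_ continuous_const
    have h1 : Continuous fun g : symplecticGroup l ℝ => g.1 i j :=
      (continuous_apply j).comp ((continuous_apply i).comp continuous_subtype_val)
    exact (h1.sub continuous_const).norm
  have hU : ∀ i, IsOpen (DD l N W i) := by
    rintro (_ | p)
    · exact hA
    · exact isOpen_Kq l (p : ℕ)
  refine ⟨Set.pi univ fun i => DD l N W i, isOpen_set_pi finite_univ fun i _ => hU i, ?_⟩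
  ext ⟨g, hg⟩
  obtain ⟨γ, rfl⟩ := hg
  simp only [mem_preimage, mem_singleton_iff]
  constructor
  · intro h
    have h2 : ∀ p : PF N, dP l N p γ ∈ Kq l (p : ℕ) := fun p => h (some p) (mem_univ _)
    have h1 : dR l N γ ∈ W := h none (mem_univ _)
    obtain ⟨δ, rfl⟩ := exists_spZ l N h2
    rw [dR_int, hmemW] at h1
    have h3 : δ = 1 := by
      apply Subtype.ext
      ext i j
      have h4 := h1 i j
      have h5 : (mp (Int.castRingHom ℝ) δ).1 i j = ((δ.1 i j : ℤ) : ℝ) := rfl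
      rw [h5] at h4
      have h6 : (1 : Matrix (l ⊕ l) (l ⊕ l) ℝ) i j =
          (((1 : Matrix (l ⊕ l) (l ⊕ l) ℤ) i j : ℤ) : ℝ) := by
        rw [Matrix.one_apply, Matrix.one_apply]; split_ifs <;> simp
      rw [h6, ← Int.cast_sub, Real.norm_eq_abs, ← Int.cast_abs] at h4
      have h7 : |δ.1 i j - (1 : Matrix (l ⊕ l) (l ⊕ l) ℤ) i j| < 1 := by exact_mod_cast h4
      have h8 := Int.abs_lt_one_iff.1 h7
      exact sub_eq_zero.1 h8
    rw [h3]
    apply Subtype.ext
    simp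
  · intro h
    have h1 : dia l N γ = 1 := congrArg Subtype.val h
    rw [h1]
    rintro (_ | p) -
    · show (1 : symplecticGroup l ℝ) ∈ W
      rw [hmemW]
      intro i j
      have h2 : ((1 : symplecticGroup l ℝ).1 i j) = (1 : Matrix (l ⊕ l) (l ⊕ l) ℝ) i j := rfl
      rw [h2, sub_self, norm_zero]
      exact one_pos
    · exact (Kq l (p : ℕ)).one_mem

/-- an element of the group with the `p`-components in the compact open subgroups -/
theorem exists_gam (g : ∀ p : PF N, symplecticGroup l ℚ_[p.1]) :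
    ∃ γ : symplecticGroup l (Zi N), ∀ p : PF N, g p * dP l N p γ ∈ Kq l (p : ℕ) := by
  have hG : ∃ g' : ∀ i : Option (PF N), SK l N i, ∀ p, g' (some p) = g p :=
    ⟨fun | none => (1 : symplecticGroup l ℝ) | some p => g p, fun p => rfl⟩
  obtain ⟨g', hg'⟩ := hG
  have ho : IsOpen (Set.pi univ fun i : {i : Option (PF N) // i ≠ none} =>
      (fun x => g' i.1 * x) ⁻¹' (DD l N univ i.1)) := by
    refine isOpen_set_pi finite_univ ?_
    rintro ⟨_ | p, hi⟩ -
    · exact absurd rfl hi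
    · have hc : Continuous fun x : symplecticGroup l ℚ_[p.1] =>
          (show symplecticGroup l ℚ_[p.1] from g' (some p)) * x := by
        fun_prop
      exact (isOpen_Kq l (p : ℕ)).preimage hc
  obtain ⟨γ, hγ⟩ := (dense_dia l N none).exists_mem_open ho
    ⟨fun i => (g' i.1)⁻¹, by
      rintro ⟨_ | p, hi⟩ -
      · exact absurd rfl hi
      · show g' (some p) * (g' (some p))⁻¹ ∈ DD l N univ (some p)
        rw [mul_inv_cancel]
        exact (Kq l (p : ℕ)).one_mem⟩
  refine ⟨γ, fun p => ?_⟩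
  have h1 : g' (some p) * dia l N γ (some p) ∈ DD l N univ (some p) :=
    hγ ⟨some p, by simp⟩ (mem_univ _)
  rw [hg'] at h1
  exact h1

theorem exists_unique_gam {F : Set (symplecticGroup l ℝ)}
    (hF : ∀ g : symplecticGroup l ℝ, ∃! k : spZ l, g * k ∈ F)
    (gR : symplecticGroup l ℝ) (gP : ∀ p : PF N, symplecticGroup l ℚ_[p.1]) :
    ∃ γ : symplecticGroup l (Zi N),
      (gR * dR l N γ ∈ F ∧ ∀ p : PF N, gP p * dP l N p γ ∈ Kq l (p : ℕ)) ∧
      ∀ γ', gR * dR l N γ' ∈ F →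
        (∀ p : PF N, gP p * dP l N p γ' ∈ Kq l (p : ℕ)) → γ' = γ := by
  obtain ⟨γ, hγ⟩ := exists_gam l N gP
  obtain ⟨⟨_, δ, rfl⟩, hk, hu⟩ := hF (gR * dR l N γ)
  obtain ⟨γ0, hγ0⟩ : ∃ γ0, γ0 = γ * mp (Int.castRingHom (Zi N)) δ := ⟨_, rfl⟩
  have h7 : gR * dR l N γ0 ∈ F := by
    rw [hγ0, map_mul, dR_int, ← mul_assoc]
    exact hk
  have h4 : ∀ p : PF N, gP p * dP l N p γ0 ∈ Kq l (p : ℕ) := by
    intro p
    rw [hγ0, map_mul, ← mul_assoc]
    exact (Kq l (p : ℕ)).mul_mem (hγ p) (dP_int l N p δ)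
  refine ⟨γ0, ⟨h7, h4⟩, fun γ' h1 h2 => ?_⟩
  have h3 : ∀ p : PF N, dP l N p (γ⁻¹ * γ') ∈ Kq l (p : ℕ) := by
    intro p
    have h5 := (Kq l (p : ℕ)).mul_mem ((Kq l (p : ℕ)).inv_mem (hγ p)) (h2 p)
    have h6 : (gP p * dP l N p γ)⁻¹ * (gP p * dP l N p γ') = dP l N p (γ⁻¹ * γ') := by
      rw [map_mul (dP l N p) γ⁻¹ γ', map_inv]; group
    rwa [h6] at h5
  obtain ⟨δ', hδ'⟩ := exists_spZ l N h3
  have h8 := hu ⟨mp (Int.castRingHom ℝ) δ', ⟨δ', rfl⟩⟩ (by
    show gR * dR l N γ * mp (Int.castRingHom ℝ) δ' ∈ F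
    rw [← dR_int l N, hδ', map_mul (dR l N) γ⁻¹ γ', map_inv, mul_assoc, mul_inv_cancel_left]
    exact h1)
  have h9 : δ' = δ := mp_injective (congrArg Subtype.val h8)
  rw [hγ0, ← h9, hδ', mul_inv_cancel_left]

theorem exists_mu {F : Set (symplecticGroup l ℝ)} (μR : @Measure (symplecticGroup l ℝ) (borel _))
    (hF : MeasurableSet[borel (symplecticGroup l ℝ)] F)
    (hs : @SigmaFinite _ (borel _) μR) (hl : @Measure.IsMulLeftInvariant _ (borel _) _ μR)
    (hr : @Measure.IsMulRightInvariant _ (borel _) _ μR) (h0 : μR F ≠ 0) (ht : μR F ≠ ⊤) :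
    ∀ i : Option (PF N), ∃ μ : @Measure (SK l N i) (borel _),
      @SigmaFinite _ (borel _) μ ∧ @Measure.IsMulLeftInvariant _ (borel _) _ μ ∧
      @Measure.IsMulRightInvariant _ (borel _) _ μ ∧
      MeasurableSet[borel _] (DD l N F i) ∧ μ (DD l N F i) ≠ 0 ∧ μ (DD l N F i) ≠ ⊤
  | none => ⟨μR, hs, hl, hr, hF, h0, ht⟩
  | some p => by
    let _ : MeasurableSpace (symplecticGroup l ℚ_[p.1]) := borel _
    have _ : BorelSpace (symplecticGroup l ℚ_[p.1]) := ⟨rfl⟩
    have hs : SigmaFinite (Measure.haar : Measure (symplecticGroup l ℚ_[p.1])) := inferInstance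
    have hl : (Measure.haar : Measure (symplecticGroup l ℚ_[p.1])).IsMulLeftInvariant :=
      inferInstance
    have hr : (Measure.haar : Measure (symplecticGroup l ℚ_[p.1])).IsMulRightInvariant :=
      rightInv_sp _
    have h1 : MeasurableSet (Kq l (p : ℕ) : Set (symplecticGroup l ℚ_[p.1])) :=
      (isOpen_Kq _ _).measurableSet
    have h2 : (Measure.haar : Measure (symplecticGroup l ℚ_[p.1]))
        (Kq l (p : ℕ) : Set (symplecticGroup l ℚ_[p.1])) ≠ 0 :=
      ((isOpen_Kq l (p : ℕ)).measure_pos _ ⟨1, (Kq _ (p : ℕ)).one_mem⟩).ne'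
    have h3 : (Measure.haar : Measure (symplecticGroup l ℚ_[p.1]))
        (Kq l (p : ℕ) : Set (symplecticGroup l ℚ_[p.1])) ≠ ⊤ :=
      (isCompact_Kq _ (p : ℕ)).measure_lt_top.ne
    refine ⟨(Measure.haar : Measure (symplecticGroup l ℚ_[p.1])), ?_⟩
    exact ⟨hs, hl, hr, h1, h2, h3⟩

/-- **`Sp_{2n}(ℤ[1/N])` is a lattice of the product of the `Sp_{2n}` of the completions.** -/
theorem isLattice_dia : H515.St.IsLattice (dia l N).range := by
  let _ : MeasurableSpace (symplecticGroup l ℝ) := borel _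
  have _ : BorelSpace (symplecticGroup l ℝ) := ⟨rfl⟩
  obtain ⟨μ, hμ⟩ : ∃ μ : Measure (symplecticGroup l ℝ), μ = Measure.haar := ⟨_, rfl⟩
  have hH : μ.IsHaarMeasure := by rw [hμ]; infer_instance
  have hr : μ.IsMulRightInvariant := rightInv_sp μ
  obtain ⟨F, hFm, hF1, hF0, hF2, -⟩ := (isLattice_spZ l).exists_fdom_right μ
  have hex := exists_mu l N μ hFm inferInstance inferInstance hr hF0.ne' hF1.ne
  let instM : ∀ i : Option (PF N), MeasurableSpace (SK l N i) := fun i => borel _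
  have instB : ∀ i : Option (PF N), BorelSpace (SK l N i) := fun i => ⟨rfl⟩
  choose ν hνs hνl hνr hDm hD0 hDt using hex
  have hd := disc_dia l N
  have hc : Countable (dia l N).range :=
    TopologicalSpace.separableSpace_iff_countable.1 inferInstance
  refine isLattice_of_fd (dia l N).range (Measure.pi ν) (D := Set.pi univ (DD l N F))
    (MeasurableSet.univ_pi hDm) ?_ ?_ fun g => ?_
  · rw [Measure.pi_pi]
    exact Finset.prod_ne_zero_iff.2 fun i _ => hD0 i
  · rw [Measure.pi_pi]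
    exact ENNReal.prod_ne_top fun i _ => hDt i
  · obtain ⟨γ, ⟨h1, h2⟩, h3⟩ := exists_unique_gam l N hF2 (g none) (fun p => g (some p))
    refine ⟨⟨dia l N γ, ⟨_, rfl⟩⟩, ?_, ?_⟩
    · rintro (_ | p) -
      · exact h1
      · exact h2 p
    · rintro ⟨_, ⟨γ', rfl⟩⟩ h
      apply Subtype.ext
      show dia l N γ' = dia l N γ
      rw [h3 γ' (h none (mem_univ _)) fun p => h (some p) (mem_univ _)]

end Vale.Agent.P092.H759
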