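import Vale.Agent.P092.H759.SpN3
import Vale.Agent.P092.H387.ExP1

/-!
P092 (helper759), block [P-LAT].  `PSp_{2n}(ℤ[1/N])` is an ICC lattice with dense projections in the
product of the groups `PSp_{2n}` of the completions.
-/

set_option linter.all false

open Matrix Set Filter Topology MeasureTheory

namespace Vale.Agent.P092.H759

section dom

variable {l : Type} [Fintype l] [DecidableEq l]

theorem neg1_comm {A : Type} [CommRing A] (g : symplecticGroup l A) :
    g * neg1 l A = neg1 l A * g := by
  refine sp_ext fun y => ?_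
  rw [mul_mulVec, mul_mulVec, neg1_mulVec, neg1_mulVec, Matrix.mulVec_neg]

theorem neg1_mem_center {A : Type} [CommRing A] :
    neg1 l A ∈ Subgroup.center (symplecticGroup l A) :=
  Subgroup.mem_center_iff.2 fun g => neg1_comm g

theorem mp_neg1 {A B : Type} [CommRing A] [CommRing B] (f : A →+* B) :
    mp f (neg1 l A) = neg1 l B := by
  apply Subtype.ext
  ext i j
  show f ((-1 : Matrix (l ⊕ l) (l ⊕ l) A) i j) = (-1 : Matrix (l ⊕ l) (l ⊕ l) B) i j
  by_cases hij : i = j
  · subst hij; simp
  · simp [hij]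

/-- if `g v` and `v` define the same transvections then `g v = ± v` -/
theorem vec_dom {A : Type} [CommRing A] [IsDomain A] (g : symplecticGroup l A) {v : l ⊕ l → A}
    (h2 : ∀ z, om (g.1 *ᵥ v) z • (g.1 *ᵥ v) = om v z • v) :
    g.1 *ᵥ v = v ∨ g.1 *ᵥ v = -v := by
  by_cases hv : v = 0
  · left; rw [hv, Matrix.mulVec_zero]
  · obtain ⟨y, hy⟩ : ∃ y, om v y ≠ 0 := by
      by_contra hcon
      push Not at hcon
      refine hv (funext fun i => ?_)
      rcases i with i | i
      · have := hcon (Pi.single (Sum.inr i) 1)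
        rw [om_swap, om_single_inr] at this
        exact neg_eq_zero.1 this
      · have := hcon (Pi.single (Sum.inl i) 1)
        rw [om_swap, om_single_inl, neg_neg] at this
        exact this
    have hgv : g.1 *ᵥ v ≠ 0 := by
      intro h
      have := inv_mulVec g v
      rw [h, Matrix.mulVec_zero] at this
      exact hv this.symm
    have e1 := h2 y
    have e2 := h2 (g.1 *ᵥ y)
    rw [om_mulVec'] at e2
    have e3 : om (g.1 *ᵥ v) y * om v y = om v y * om v (g.1 *ᵥ y) := by
      have h3 := congrArg (fun x => om x (g.1 *ᵥ y)) e1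
      simp only [om_smul_left, om_mulVec'] at h3
      exact h3
    have e4 : om (g.1 *ᵥ v) y = om v (g.1 *ᵥ y) := by
      rw [mul_comm] at e3
      exact mul_left_cancel₀ hy e3
    rw [← e4] at e2
    have e5 : (om v y * om v y - om (g.1 *ᵥ v) y * om (g.1 *ᵥ v) y) • (g.1 *ᵥ v) = 0 := by
      rw [sub_smul, mul_smul, mul_smul, e2, e1, smul_smul, smul_smul, mul_comm, sub_self]
    have e6 := (smul_eq_zero.1 e5).resolve_right hgv
    rcases mul_self_eq_mul_self_iff.1 (sub_eq_zero.1 e6) with h | h
    · left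
      rw [← h] at e1
      exact smul_right_injective _ hy e1
    · right
      have h' : om (g.1 *ᵥ v) y = - om v y := by rw [h, neg_neg]
      rw [h', neg_smul, ← smul_neg] at e1
      have h7 := smul_right_injective _ hy e1
      exact neg_eq_iff_eq_neg.1 h7

/-- `g v = ± v` for all `v` implies `g = ± 1` -/
theorem pm_of_vec {A : Type} [CommRing A] [IsDomain A] (h2 : (2 : A) ≠ 0)
    {g : symplecticGroup l A} (h : ∀ v, g.1 *ᵥ v = v ∨ g.1 *ᵥ v = -v) : g = 1 ∨ g = neg1 l A := by
  by_contra hcon
  push Not at hcon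
  obtain ⟨u, hu⟩ : ∃ u, g.1 *ᵥ u ≠ u := by
    by_contra h
    push Not at h
    exact hcon.1 (sp_ext fun y => by rw [h, one_mulVec'])
  obtain ⟨w, hw⟩ : ∃ w, g.1 *ᵥ w ≠ -w := by
    by_contra h
    push Not at h
    exact hcon.2 (sp_ext fun y => by rw [h, neg1_mulVec])
  have hu' := (h u).resolve_left hu
  have hw' := (h w).resolve_right hw
  have hdbl : ∀ x : l ⊕ l → A, x + x = 0 → x = 0 := by
    intro x hx
    have : (2 : A) • x = 0 := by rw [two_smul]; exact hx
    exact (smul_eq_zero.1 this).resolve_left h2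
  rcases h (u + w) with h | h
  · rw [Matrix.mulVec_add, hu', hw'] at h
    have h3 : u + u = 0 := by
      have h4 : -u + w - w + u = u + w - w + u := by rw [h]
      have h5 : -u + w - w + u = 0 := by abel
      have h6 : u + w - w + u = u + u := by abel
      rw [h5, h6] at h4
      exact h4.symm
    apply hu
    rw [hu', hdbl u h3, neg_zero]
  · rw [Matrix.mulVec_add, hu', hw'] at h
    have h3 : w + w = 0 := by
      have h4 : -u + w + u + w = -(u + w) + u + w := by rw [h]
      have h5 : -u + w + u + w = w + w := by abel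
      have h6 : -(u + w) + u + w = 0 := by abel
      rw [h5, h6] at h4
      exact h4
    apply hw
    rw [hw', hdbl w h3, neg_zero]

/-- an element commuting with a nontrivial power of every transvection is `± 1` -/
theorem pm_of_comm {A : Type} [CommRing A] [IsDomain A] (h2 : (2 : A) ≠ 0)
    {g : symplecticGroup l A} (h : ∀ v, ∃ c : A, c ≠ 0 ∧ tS v c * g = g * tS v c) :
    g = 1 ∨ g = neg1 l A := by
  refine pm_of_vec h2 fun v => ?_
  obtain ⟨c, hc, hcg⟩ := h v
  have h1 : tS (g.1 *ᵥ v) c = tS v c := by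
    rw [← tS_conj, ← hcg, mul_inv_cancel_right]
  refine vec_dom g fun z => ?_
  have h4 := congrArg (fun B : symplecticGroup l A => B.1 *ᵥ z) h1
  simp only [tS_mulVec] at h4
  have h5 := add_left_cancel h4
  rw [mul_smul, mul_smul] at h5
  exact smul_right_injective _ hc h5

/-- the centre of `Sp` of a domain -/
theorem mem_center_iff' {A : Type} [CommRing A] [IsDomain A] (h2 : (2 : A) ≠ 0)
    {g : symplecticGroup l A} :
    g ∈ Subgroup.center (symplecticGroup l A) ↔ g = 1 ∨ g = neg1 l A := by
  constructor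
  · intro h
    exact pm_of_comm h2 fun v => ⟨1, one_ne_zero, Subgroup.mem_center_iff.1 h _⟩
  · rintro (rfl | rfl)
    · exact Subgroup.one_mem _
    · exact neg1_mem_center

theorem finite_center' {A : Type} [CommRing A] [IsDomain A] (h2 : (2 : A) ≠ 0) :
    ((Subgroup.center (symplecticGroup l A) : Subgroup (symplecticGroup l A)) :
      Set (symplecticGroup l A)).Finite := by
  have h : ((Subgroup.center (symplecticGroup l A) : Subgroup (symplecticGroup l A)) :
      Set (symplecticGroup l A)) ⊆ {1, neg1 l A} := fun g hg => (mem_center_iff' h2).1 hg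
  exact (Set.toFinite {1, neg1 l A}).subset h

/-- **`PSp_{2n}(A)` is ICC for all domains `A` of characteristic zero.** -/
theorem icc_psp' (A : Type) [CommRing A] [IsDomain A] [CharZero A] :
    ∀ g : symplecticGroup l A ⧸ Subgroup.center (symplecticGroup l A), g ≠ 1 →
      Set.Infinite {y : symplecticGroup l A ⧸ Subgroup.center (symplecticGroup l A) |
        ∃ h, y = h * g * h⁻¹} := by
  have h2 : (2 : A) ≠ 0 := two_ne_zero
  refine H387.N.icc_quo _ (finite_center' h2) fun g hg hfin => hg ?_
  refine (mem_center_iff' h2).2 (pm_of_comm h2 fun v => ?_)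
  have hmaps : MapsTo (fun t : ℕ => tS v (t : A) * g * (tS v (t : A))⁻¹) univ
      {y : symplecticGroup l A | ∃ h, y = h * g * h⁻¹} := fun t _ => ⟨_, rfl⟩
  obtain ⟨s, -, t, -, hst, heq⟩ := Set.infinite_univ.exists_ne_map_eq_of_mapsTo hmaps hfin
  refine ⟨(s : A) - (t : A), fun h0 => hst (Nat.cast_injective (sub_eq_zero.1 h0)), ?_⟩
  have e1 : tS v ((s : A) - (t : A)) = (tS v (t : A))⁻¹ * tS v (s : A) := by
    rw [eq_inv_mul_iff_mul_eq, tS_add, add_sub_cancel]
  have heq' : tS v (s : A) * g * (tS v (s : A))⁻¹ = tS v (t : A) * g * (tS v (t : A))⁻¹ := heq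
  have e2 : tS v (s : A) * g = tS v (t : A) * g * (tS v (t : A))⁻¹ * tS v (s : A) := by
    rw [← heq']; group
  rw [e1, mul_assoc, e2]; group

theorem center_le' {A B : Type} [CommRing A] [IsDomain A] (h2 : (2 : A) ≠ 0) [CommRing B]
    (f : A →+* B) : Subgroup.center (symplecticGroup l A) ≤
      (Subgroup.center (symplecticGroup l B)).comap (mp f) := by
  intro x hx
  rw [Subgroup.mem_comap]
  rcases (mem_center_iff' h2).1 hx with h | h
  · rw [h, map_one]; exact Subgroup.one_mem _
  · rw [h, mp_neg1]; exact neg1_mem_center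

theorem mem_center_of_mp {A B : Type} [CommRing A] [CommRing B] [IsDomain B] (h2 : (2 : B) ≠ 0)
    {f : A →+* B} (hf : Function.Injective f) {x : symplecticGroup l A}
    (h : mp f x ∈ Subgroup.center (symplecticGroup l B)) :
    x ∈ Subgroup.center (symplecticGroup l A) := by
  rcases (mem_center_iff' h2).1 h with h | h
  · rw [mp_inj l hf (h.trans (map_one _).symm)]
    exact Subgroup.one_mem _
  · rw [mp_inj l hf (h.trans (mp_neg1 f).symm)]
    exact neg1_mem_center

end dom

section N

open H387 H387.N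

variable (l : Type) [Fintype l] [DecidableEq l] (N : ℕ) [hN : Fact (1 < N)]

instance domZi : IsDomain (Zi N) := Function.Injective.isDomain _ (emb_injective N none)

instance czZi : CharZero (Zi N) := ⟨fun a b hab => by
  obtain ⟨f, -⟩ : ∃ f : Zi N →+* ℝ, f = H387.N.emb N none := ⟨_, rfl⟩
  have h1 : f (a : Zi N) = f (b : Zi N) := congrArg f hab
  rw [map_natCast, map_natCast] at h1
  exact_mod_cast h1⟩

/-- `PSp_{2n}(ℤ[1/N])` -/
abbrev PSpN : Type := symplecticGroup l (Zi N) ⧸ Subgroup.center (symplecticGroup l (Zi N))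

/-- `PSp_{2n}(K_i)` -/
abbrev PSK (i : Option (PF N)) : Type := SK l N i ⧸ Subgroup.center (SK l N i)

/-- The maps `PSp_{2n}(ℤ[1/N]) → PSp_{2n}(K_i)`. -/
noncomputable def sq (i : Option (PF N)) : PSpN l N →* PSK l N i :=
  QuotientGroup.map _ _ (mp (H387.N.emb N i)) (center_le' two_ne_zero (H387.N.emb N i))

theorem sq_mk (i : Option (PF N)) (x : symplecticGroup l (Zi N)) :
    sq l N i (QuotientGroup.mk' _ x) = QuotientGroup.mk' _ (dia l N x i) := rfl

theorem two_KK (i : Option (PF N)) : (2 : KK N i) ≠ 0 := by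
  rcases i with _ | p
  · exact (two_ne_zero : (2 : ℝ) ≠ 0)
  · exact (two_ne_zero : (2 : ℚ_[p.1]) ≠ 0)

theorem sq_inj : Function.Injective (MonoidHom.pi (sq l N)) := by
  rw [injective_iff_map_eq_one]
  intro g hg
  obtain ⟨x, rfl⟩ := QuotientGroup.mk'_surjective _ g
  have h1 : sq l N none (QuotientGroup.mk' _ x) = 1 := congrFun hg none
  rw [sq_mk] at h1
  exact (QuotientGroup.eq_one_iff x).2
    (mem_center_of_mp (two_KK N none) (emb_injective N none) ((QuotientGroup.eq_one_iff _).1 h1))

theorem dense_dia_apply (i : Option (PF N)) : DenseRange fun g => dia l N g i := by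
  obtain ⟨j, hj⟩ : ∃ j, i ≠ j := by
    cases i with
    | none =>
      obtain ⟨p, hp⟩ := (Nat.nonempty_primeFactors (n := N)).2 (Fact.out : 1 < N)
      exact ⟨some ⟨p, hp⟩, by simp⟩
    | some p => exact ⟨none, by simp⟩
  have h1 := dense_dia l N j
  have h2 : Function.Surjective fun x : (∀ i : {i : Option (PF N) // i ≠ j}, SK l N i.1) =>
      x ⟨i, hj⟩ := fun y => ⟨fun i' => if h : i'.1 = i then h ▸ y else 1, by simp⟩
  exact h2.denseRange.comp h1 (continuous_apply _)

theorem sq_dense (i : Option (PF N)) : DenseRange (sq l N i) := by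
  have h1 : DenseRange fun g => (QuotientGroup.mk' (Subgroup.center (SK l N i)))
      (dia l N g i) :=
    (QuotientGroup.mk'_surjective _).denseRange.comp (dense_dia_apply l N i)
      QuotientGroup.continuous_mk
  refine h1.mono ?_
  rintro _ ⟨g, rfl⟩
  exact ⟨QuotientGroup.mk' _ g, rfl⟩

theorem sq_lattice : H515.St.IsLattice (MonoidHom.pi (sq l N)).range := by
  have h1 : H515.St.IsLattice (MonoidHom.pi fun i => (Pi.evalMonoidHom (SK l N) i).comp
      (dia l N)).range := isLattice_dia l N
  have h2 := H971.lat_quot (fun i => (Pi.evalMonoidHom (SK l N) i).comp (dia l N)) h1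
    fun i => (finite_center' (A := KK N i) (two_KK N i)).isCompact
  have e : (MonoidHom.pi (sq l N)).range = (MonoidHom.pi fun i =>
      (QuotientGroup.mk' (Subgroup.center (SK l N i))).comp
        ((Pi.evalMonoidHom (SK l N) i).comp (dia l N))).range := by
    ext x
    constructor
    · rintro ⟨g, rfl⟩
      obtain ⟨y, rfl⟩ := QuotientGroup.mk'_surjective _ g
      exact ⟨y, rfl⟩
    · rintro ⟨y, rfl⟩
      exact ⟨QuotientGroup.mk' _ y, rfl⟩
  rw [e]
  exact h2

/-- **`PSp_{2n}(ℤ[1/N])` is an ICC lattice of `PSp_{2n}(ℝ) × ∏ PSp_{2n}(ℚ_p)`, with dense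
projections.** -/
theorem psp_N : UN.ICC (PSpN l N) ∧ UN.DenseLattice (MonoidHom.pi (sq l N)) :=
  ⟨icc_psp' (Zi N), sq_inj l N, ⟨(sq_lattice l N).disc, (sq_lattice l N).covol⟩, sq_dense l N⟩

end N

end Vale.Agent.P092.H759
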