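import Vale.Agent.P092.H759.SpN4
import Vale.Agent.P092.UN.Cls

/-!
P092 (helper759), block [P-LAT].  `PSp_{2n}(k)` and `PSp_{2n}(ℤ[1/N])` in the letters `UN.Cls`,
`UN.ClassLattice`.
-/

set_option linter.all false

open Matrix Set Filter Topology MeasureTheory

namespace Vale.Agent.P092.H759

section cls

variable (n : ℕ) (k : Type) [NontriviallyNormedField k]

/-- the coordinates of the class `IsCl` -/
def eE : (Fin n ⊕ Fin n) ⊕ Empty ≃ Fin n ⊕ Fin n := Equiv.sumEmpty _ _

theorem form_eE : (fromBlocks (fromBlocks 0 1 ((-1 : k) • (1 : Matrix (Fin n) (Fin n) k)) 0) 0 0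
    (0 : Matrix Empty Empty k) : Matrix ((Fin n ⊕ Fin n) ⊕ Empty) ((Fin n ⊕ Fin n) ⊕ Empty) k) =
    -(J (Fin n) k).submatrix (eE n) (eE n) := by
  ext i j
  rcases i with (i | i) | i
  · rcases j with (j | j) | j
    · simp [eE, J]
    · simp [eE, J]
    · exact j.elim
  · rcases j with (j | j) | j
    · simp [eE, J]
    · simp [eE, J]
    · exact j.elim
  · exact i.elim

theorem isom_iff (g : Matrix ((Fin n ⊕ Fin n) ⊕ Empty) ((Fin n ⊕ Fin n) ⊕ Empty) k) :
    UN.IsIsom (RingHom.id k) (-1 : k) (0 : Matrix Empty Empty k) n g ↔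
      g.submatrix (eE n).symm (eE n).symm ∈ symplecticGroup (Fin n) k := by
  unfold UN.IsIsom
  rw [form_eE, SymplecticGroup.mem_iff]
  have h1 : g.map (RingHom.id k) = g := by ext i j; rfl
  rw [h1, Matrix.mul_neg, Matrix.neg_mul, neg_inj]
  obtain ⟨G, hG⟩ : ∃ G, G = g.submatrix (eE n).symm (eE n).symm := ⟨_, rfl⟩
  have hg : g = G.submatrix (eE n) (eE n) := by
    rw [hG, Matrix.submatrix_submatrix]; simp
  rw [← hG, hg, Matrix.transpose_submatrix, Matrix.submatrix_mul_equiv,
    Matrix.submatrix_mul_equiv]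
  constructor
  · intro h
    ext i j
    have h2 := congrFun (congrFun h ((eE n).symm i)) ((eE n).symm j)
    simpa using h2
  · intro h
    rw [h]

/-- the isometry group inside `SL` -/
def SI : Subgroup (SpecialLinearGroup ((Fin n ⊕ Fin n) ⊕ Empty) k) where
  carrier := {g | g.1.submatrix (eE n).symm (eE n).symm ∈ symplecticGroup (Fin n) k}
  mul_mem' {a b} ha hb := by
    show (a.1 * b.1).submatrix (eE n).symm (eE n).symm ∈ symplecticGroup (Fin n) k
    rw [← Matrix.submatrix_mul_equiv (e₂ := (eE n).symm)]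
    exact mul_mem ha hb
  one_mem' := by
    show (1 : Matrix _ _ k).submatrix (eE n).symm (eE n).symm ∈ symplecticGroup (Fin n) k
    rw [Matrix.submatrix_one_equiv]
    exact one_mem _
  inv_mem' {a} ha := by
    have h1 : (a⁻¹).1.submatrix (eE n).symm (eE n).symm =
        ((⟨_, ha⟩ : symplecticGroup (Fin n) k)⁻¹).1 := by
      have h2 : (a⁻¹).1.submatrix (eE n).symm (eE n).symm *
          a.1.submatrix (eE n).symm (eE n).symm = 1 := by
        rw [Matrix.submatrix_mul_equiv]
        have h3 : (a⁻¹).1 * a.1 = 1 := congrArg Subtype.val (inv_mul_cancel a)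
        rw [h3, Matrix.submatrix_one_equiv]
      have h4 : a.1.submatrix (eE n).symm (eE n).symm *
          ((⟨_, ha⟩ : symplecticGroup (Fin n) k)⁻¹).1 = 1 :=
        congrArg Subtype.val (mul_inv_cancel (⟨_, ha⟩ : symplecticGroup (Fin n) k))
      calc (a⁻¹).1.submatrix (eE n).symm (eE n).symm
          = (a⁻¹).1.submatrix (eE n).symm (eE n).symm *
            (a.1.submatrix (eE n).symm (eE n).symm *
              ((⟨_, ha⟩ : symplecticGroup (Fin n) k)⁻¹).1) := by rw [h4, Matrix.mul_one]
        _ = _ := by rw [← Matrix.mul_assoc, h2, Matrix.one_mul]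
    show (a⁻¹).1.submatrix (eE n).symm (eE n).symm ∈ symplecticGroup (Fin n) k
    rw [h1]
    exact Subtype.property _

/-- `symplecticGroup (Fin n) k` in the letters of `IsCl` -/
noncomputable def trI : symplecticGroup (Fin n) k ≃* SI n k where
  toFun A := ⟨⟨A.1.submatrix (eE n) (eE n), by
      rw [Matrix.det_submatrix_equiv_self]; exact SymplecticGroup.det_eq_one A.2⟩, by
    show (A.1.submatrix (eE n) (eE n)).submatrix (eE n).symm (eE n).symm ∈
      symplecticGroup (Fin n) k
    rw [Matrix.submatrix_submatrix]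
    simp⟩
  invFun g := ⟨g.1.1.submatrix (eE n).symm (eE n).symm, g.2⟩
  left_inv A := by
    apply Subtype.ext
    show (A.1.submatrix (eE n) (eE n)).submatrix (eE n).symm (eE n).symm = A.1
    rw [Matrix.submatrix_submatrix]; simp
  right_inv g := by
    apply Subtype.ext
    apply Subtype.ext
    show (g.1.1.submatrix (eE n).symm (eE n).symm).submatrix (eE n) (eE n) = g.1.1
    rw [Matrix.submatrix_submatrix]; simp
  map_mul' A B := by
    apply Subtype.ext
    apply Subtype.ext
    exact (Matrix.submatrix_mul_equiv A.1 B.1 _ _ _).symm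

theorem cont_trI : Continuous (trI n k) := by
  refine continuous_induced_rng.2 (continuous_induced_rng.2 ?_)
  exact Continuous.matrix_submatrix continuous_subtype_val _ _

theorem cont_trI_symm : Continuous (trI n k).symm := by
  refine continuous_induced_rng.2 ?_
  have h : Continuous fun g : SI n k => g.1.1 := continuous_subtype_val.comp continuous_subtype_val
  exact h.matrix_submatrix _ _

theorem quo_SI {E : Type} [Group E] [TopologicalSpace E]
    (h : UN.Quo (symplecticGroup (Fin n) k) E) : UN.Quo (SI n k) E := by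
  obtain ⟨f, hf, hz⟩ := h
  refine ⟨f.comp (trI n k).symm.toMonoidHom, ?_, ?_⟩
  · have h1 : IsQuotientMap (trI n k).symm :=
      (⟨(trI n k).symm.toEquiv, cont_trI_symm n k, cont_trI n k⟩ :
        SI n k ≃ₜ symplecticGroup (Fin n) k).isQuotientMap
    exact hf.comp h1
  · intro x hx
    have h1 : (trI n k).symm x ∈ f.ker := hx
    have h2 := Subgroup.mem_center_iff.1 (hz h1)
    refine Subgroup.mem_center_iff.2 fun y => ?_
    have h3 := h2 ((trI n k).symm y)
    rw [← map_mul, ← map_mul] at h3
    exact (trI n k).symm.injective h3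

/-- **The quotients of `Sp_{2n}(k)` by central subgroups belong to `IsCl`.** -/
theorem isCl_sp {E : Type} [Group E] [TopologicalSpace E] (hn : 1 ≤ n)
    (h : UN.Quo (symplecticGroup (Fin n) k) E) : UN.IsCl k E := by
  refine ⟨RingHom.id k, -1, Empty, inferInstance, inferInstance, 0, n, SI n k, continuous_id,
    fun _ => rfl, by ring, rfl, ⟨fun i => i.elim, fun v hv => (hv (Subsingleton.elim _ _)).elim⟩,
    hn, fun g => (isom_iff n k g.1).symm, Or.inl ⟨Or.inr ⟨rfl, inferInstance⟩, quo_SI n k h⟩⟩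

/-- **The quotients of `Sp_{2n}(k)` by central subgroups belong to `Cls`.** -/
theorem cls_sp [ProperSpace k] (hk : UN.LocK k) {E : Type} [Group E] [TopologicalSpace E]
    (hn : 1 ≤ n) (h : UN.Quo (symplecticGroup (Fin n) k) E) : UN.Cls E :=
  ⟨k, inferInstance, inferInstance, hk, Or.inl (isCl_sp n k hn h)⟩

end cls

section N

open H387 H387.N

variable (n N : ℕ) [hN : Fact (1 < N)]

theorem quo_center {S : Type} [Group S] [TopologicalSpace S] :
    UN.Quo S (S ⧸ Subgroup.center S) :=
  ⟨QuotientGroup.mk' _, QuotientGroup.isQuotientMap_mk _, by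
    rw [QuotientGroup.ker_mk']⟩

theorem cls_PSK (hn : 1 ≤ n) : ∀ i : Option (PF N), UN.Cls (PSK (Fin n) N i)
  | none => cls_sp n ℝ (UN.LocK.real (RingEquiv.refl ℝ) fun _ => rfl) hn quo_center
  | some p => cls_sp n ℚ_[p.1] (UN.LocK.ultra inferInstance) hn quo_center

/-- **`PSp_{2n}(ℤ[1/N])` satisfies the hypotheses of the theorem on products, `n ≥ 1`, `N ≥ 2`.** -/
theorem classLattice_psp (hn : 1 ≤ n) : UN.ClassLattice (PSpN (Fin n) N) :=
  ⟨(psp_N (Fin n) N).1, Option (PF N), inferInstance, PSK (Fin n) N, inferInstance, inferInstance,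
    MonoidHom.pi (sq (Fin n) N), cls_PSK n N hn, (psp_N (Fin n) N).2⟩

end N

end Vale.Agent.P092.H759
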