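import Vale.Agent.P092.H759.SpEx
import Vale.Agent.P092.H17.SpQuot
import Vale.Agent.P092.H259.Lat
import Vale.Agent.P092.UN.Quo
import Vale.Agent.P092.UN.St

/-!
P092 (helper759), block [P-LAT].  Part 10: `PSp_{2n}(ℤ) = Sp_{2n}(ℤ)/{±1}` is an ICC lattice of
`Sp_{2n}(ℝ)/{±1}`.
-/

set_option linter.all false

open Matrix MeasureTheory Set Topology

namespace Vale.Agent.P092.H759

section center

variable {l : Type} [Fintype l] [DecidableEq l] {K : Type} [Field K]

theorem exists_om {v : l ⊕ l → K} (hv : v ≠ 0) : ∃ y, om v y ≠ 0 := by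
  by_contra hcon
  push Not at hcon
  exact hv (eq_zero_of_om fun z => by rw [om_swap, hcon, neg_zero])

theorem center_vec {g : symplecticGroup l K} (hg : g ∈ Subgroup.center (symplecticGroup l K))
    (v : l ⊕ l → K) : g.1 *ᵥ v = v ∨ g.1 *ᵥ v = -v := by
  by_cases hv : v = 0
  · left; rw [hv, Matrix.mulVec_zero]
  · obtain ⟨y, hy⟩ := exists_om hv
    have h1 : tS (g.1 *ᵥ v) 1 = tS v 1 := by
      rw [← tS_conj, (Subgroup.mem_center_iff.1 hg (tS v 1)).symm, mul_inv_cancel_right]
    have h2 : ∀ z, om (g.1 *ᵥ v) z • (g.1 *ᵥ v) = om v z • v := by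
      intro z
      have h3 := congrArg (fun A : symplecticGroup l K => A.1 *ᵥ z) h1
      simp only [tS_mulVec, one_mul] at h3
      exact add_left_cancel h3
    obtain ⟨a, ha⟩ : ∃ a : K, v = a • (g.1 *ᵥ v) := by
      refine ⟨(om v y)⁻¹ * om (g.1 *ᵥ v) y, ?_⟩
      rw [mul_smul, h2, smul_smul, inv_mul_cancel₀ hy, one_smul]
    have h4 : a * a = 1 := by
      have h5 := h2 (g.1 *ᵥ y)
      rw [om_mulVec'] at h5
      have h6 : om v (g.1 *ᵥ y) • v = (a * a * om v y) • (g.1 *ᵥ v) := by
        nth_rw 2 [ha]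
        nth_rw 1 [ha]
        rw [om_smul_left, om_mulVec', smul_smul]
        congr 1
        ring
      rw [h6, ← sub_eq_zero, ← sub_smul] at h5
      have h7 : g.1 *ᵥ v ≠ 0 := mulVec_ne_zero g hv
      have h8 := (smul_eq_zero.1 h5).resolve_right h7
      have h9 : (1 - a * a) * om v y = 0 := by linear_combination h8
      have h10 := (mul_eq_zero.1 h9).resolve_right hy
      linear_combination -h10
    rcases mul_self_eq_one_iff.1 h4 with h5 | h5
    · left; rw [h5, one_smul] at ha; exact ha.symm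
    · right
      rw [h5, neg_smul, one_smul] at ha
      exact neg_eq_iff_eq_neg.1 ha.symm

/-- the centre of `Sp` is `{1, -1}` -/
theorem eq_of_mem_center (h2 : (2 : K) ≠ 0) {g : symplecticGroup l K}
    (hg : g ∈ Subgroup.center (symplecticGroup l K)) : g = 1 ∨ g = neg1 l K := by
  by_contra hcon
  push Not at hcon
  obtain ⟨u, hu⟩ : ∃ u, g.1 *ᵥ u ≠ u := by
    by_contra h
    push Not at h
    exact hcon.1 (sp_ext fun y => by rw [h, one_mulVec'])
  obtain ⟨w, hw⟩ : ∃ w, g.1 *ᵥ w ≠ -w := by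
    by_contra h
    push Not at h
    exact hcon.2 (sp_ext fun y => by rw [h, neg1_mulVec])
  have hu' := (center_vec hg u).resolve_left hu
  have hw' := (center_vec hg w).resolve_right hw
  have hdbl : ∀ x : l ⊕ l → K, x + x = 0 → x = 0 := by
    intro x hx
    have : (2 : K) • x = 0 := by rw [two_smul]; exact hx
    exact (smul_eq_zero.1 this).resolve_left h2
  rcases center_vec hg (u + w) with h | h
  · rw [Matrix.mulVec_add, hu', hw'] at h
    have h3 : u + u = 0 := by
      have h4 : -u + w - w + u = u + w - w + u := by rw [h]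
      have h5 : -u + w - w + u = 0 := by abel
      have h6 : u + w - w + u = u + u := by abel
      rw [h5, h6] at h4
      exact h4.symm
    apply hu
    rw [hu', hdbl u h3, neg_zero]
  · rw [Matrix.mulVec_add, hu', hw'] at h
    have h3 : w + w = 0 := by
      have h4 : -u + w + u + w = -(u + w) + u + w := by rw [h]
      have h5 : -u + w + u + w = w + w := by abel
      have h6 : -(u + w) + u + w = 0 := by abel
      rw [h5, h6] at h4
      exact h4
    apply hw
    rw [hw', hdbl w h3, neg_zero]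

theorem finite_center (h2 : (2 : K) ≠ 0) : Finite (Subgroup.center (symplecticGroup l K)) := by
  have h : ((Subgroup.center (symplecticGroup l K) : Subgroup (symplecticGroup l K)) :
      Set (symplecticGroup l K)) ⊆ {1, neg1 l K} := fun g hg => eq_of_mem_center h2 hg
  exact ((Set.toFinite {1, neg1 l K}).subset h).to_subtype

end center

section psp

variable (n : ℕ)

/-- `Sp_{2n}(ℝ)/{±1}` -/
abbrev PSpR : Type := H259.PQ (symplecticGroup (Fin n) ℝ)

theorem center_le : Subgroup.center (symplecticGroup (Fin n) ℤ) ≤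
    (Subgroup.center (symplecticGroup (Fin n) ℝ)).comap (mp (Int.castRingHom ℝ)) := by
  intro x hx
  rw [Subgroup.mem_comap, Subgroup.mem_center_iff]
  intro A
  have h1 : mp (Int.castRingHom ℝ) x = 1 ∨ mp (Int.castRingHom ℝ) x = neg1 (Fin n) ℝ := by
    rcases H17.of_mem_center hx with h | h
    · left
      have : x = 1 := Subtype.ext h
      rw [this, map_one]
    · right
      have : x = neg1 (Fin n) ℤ := Subtype.ext h
      rw [this]
      apply Subtype.ext
      ext i j
      show (((-1 : Matrix (Fin n ⊕ Fin n) (Fin n ⊕ Fin n) ℤ) i j : ℤ) : ℝ) =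
        (-1 : Matrix (Fin n ⊕ Fin n) (Fin n ⊕ Fin n) ℝ) i j
      by_cases hij : i = j
      · subst hij; simp
      · simp [hij]
  rcases h1 with h1 | h1
  · rw [h1, mul_one, one_mul]
  · rw [h1]
    refine sp_ext fun y => ?_
    rw [mul_mulVec, mul_mulVec, neg1_mulVec, neg1_mulVec, Matrix.mulVec_neg]

/-- `PSp_{2n}(ℤ) → PSp_{2n}(ℝ)` -/
noncomputable def psp : H17.PSpZ n →* PSpR n :=
  QuotientGroup.map _ _ (mp (Int.castRingHom ℝ)) (center_le n)

theorem psp_mk (x : symplecticGroup (Fin n) ℤ) :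
    psp n (QuotientGroup.mk' _ x) = H259.pq _ (mp (Int.castRingHom ℝ) x) := rfl

theorem psp_injective : Function.Injective (psp n) := by
  rw [injective_iff_map_eq_one]
  intro g hg
  obtain ⟨x, rfl⟩ := QuotientGroup.mk'_surjective _ g
  rw [psp_mk] at hg
  have h1 : mp (Int.castRingHom ℝ) x ∈ Subgroup.center (symplecticGroup (Fin n) ℝ) :=
    (QuotientGroup.eq_one_iff _).1 hg
  refine (QuotientGroup.eq_one_iff _).2 (H17.mem_center_of x ?_)
  rcases eq_of_mem_center two_ne_zero h1 with h | h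
  · left
    have : x = 1 := mp_injective (h.trans (map_one _).symm)
    rw [this]; rfl
  · right
    have h3 : mp (Int.castRingHom ℝ) (neg1 (Fin n) ℤ) = neg1 (Fin n) ℝ := by
      apply Subtype.ext
      ext i j
      show (((-1 : Matrix (Fin n ⊕ Fin n) (Fin n ⊕ Fin n) ℤ) i j : ℤ) : ℝ) =
        (-1 : Matrix (Fin n ⊕ Fin n) (Fin n ⊕ Fin n) ℝ) i j
      by_cases hij : i = j
      · subst hij; simp
      · simp [hij]
    have : x = neg1 (Fin n) ℤ := mp_injective (h.trans h3.symm)
    rw [this]; rfl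

theorem psp_lattice : H515.St.IsLattice (psp n).range := by
  have h0 := isLattice_spZ (Fin n)
  have h1 : H515.St.IsLattice (spZ (Fin n)) := ⟨h0.disc, h0.covol⟩
  have hf : Finite (Subgroup.center (symplecticGroup (Fin n) ℝ)) := finite_center two_ne_zero
  have hcl : IsClosed ((Subgroup.center (symplecticGroup (Fin n) ℝ) :
      Subgroup (symplecticGroup (Fin n) ℝ)) : Set (symplecticGroup (Fin n) ℝ)) :=
    (Set.toFinite _).isClosed
  have h2 := H259.isLattice_map (H259.isProperMap_pq hf) H259.pq_surj h1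
  have e : (psp n).range = (spZ (Fin n)).map (H259.pq (symplecticGroup (Fin n) ℝ)) := by
    ext x
    constructor
    · rintro ⟨g, rfl⟩
      obtain ⟨y, rfl⟩ := QuotientGroup.mk'_surjective _ g
      exact ⟨_, ⟨y, rfl⟩, rfl⟩
    · rintro ⟨_, ⟨y, rfl⟩, rfl⟩
      exact ⟨QuotientGroup.mk' _ y, rfl⟩
  rw [e]
  exact h2

theorem quo_psp : UN.Quo (symplecticGroup (Fin n) ℝ) (PSpR n) :=
  ⟨H259.pq _, QuotientGroup.isQuotientMap_mk _, by
    rw [QuotientGroup.ker_mk']⟩

/-- **`PSp_{2n}(ℤ)` is an ICC lattice of `PSp_{2n}(ℝ)`, every `n`.** -/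
theorem psp_Z : UN.ICC (H17.PSpZ n) ∧ Function.Injective (psp n) ∧ UN.IsLattice (psp n).range := by
  refine ⟨fun g hg => ?_, psp_injective n, (psp_lattice n).disc, (psp_lattice n).covol⟩
  have h := H17.icc_psp (n := n) ⊤ ⟨g, trivial⟩ (fun h => hg (congrArg Subtype.val h))
  refine Set.Infinite.mono ?_ (h.image (f := Subtype.val) Subtype.val_injective.injOn)
  rintro _ ⟨_, ⟨h', rfl⟩, rfl⟩
  exact ⟨h'.1, rfl⟩

end psp

end Vale.Agent.P092.H759
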