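import Vale.Agent.P092.H759.SpQ
import Vale.Agent.P092.UN.StC

/-!
P092 (helper759), block [P-LAT].  `PSp_4(ℤ)` in the letters of the final statement of Team P.
-/

set_option linter.all false

namespace Vale.Agent.P092.H759

/-- **`PSp_4(ℤ) = Sp_4(ℤ)/{±1}` is an ICC lattice of `PSp_4(ℝ)`.** -/
theorem latticeC_pspZ :
    UN.LatticeC (Matrix.symplecticGroup (Fin 2) ℤ ⧸
      Subgroup.center (Matrix.symplecticGroup (Fin 2) ℤ)) :=
  ⟨(psp_Z 2).1, PSpR 2, inferInstance, inferInstance, psp 2, Or.inl (quo_psp 2), (psp_Z 2).2.1,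
    (psp_Z 2).2.2⟩

/-- The identity is a central quotient. -/
theorem quo_refl (S : Type) [Group S] [TopologicalSpace S] : UN.Quo S S :=
  ⟨MonoidHom.id S, Topology.IsQuotientMap.id, by
    intro x hx
    have h : x = 1 := hx
    rw [h]; exact Subgroup.one_mem _⟩

/-- **Every subgroup of finite index of `Sp_4(ℤ)` without `-1` is an ICC lattice of `Sp_4(ℝ)`.** -/
theorem latticeC_of_finiteIndex (Γ : Subgroup (Matrix.symplecticGroup (Fin 2) ℤ)) [Γ.FiniteIndex]
    (hneg : ∀ g ∈ Γ, (g : Matrix (Fin 2 ⊕ Fin 2) (Fin 2 ⊕ Fin 2) ℤ) ≠ -1) :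
    UN.LatticeC Γ := by
  have h := isLattice_map_of_finiteIndex Γ
  have e : ((mp (l := Fin 2) (Int.castRingHom ℝ)).comp Γ.subtype).range =
      Γ.map (mp (l := Fin 2) (Int.castRingHom ℝ)) := by
    rw [MonoidHom.range_comp, Subgroup.range_subtype]
  refine ⟨fun g hg => H17.icc_of_finiteIndex Γ hneg g hg, Matrix.symplecticGroup (Fin 2) ℝ,
    inferInstance, inferInstance, (mp (l := Fin 2) (Int.castRingHom ℝ)).comp Γ.subtype,
    Or.inl (quo_refl _), mp_injective.comp Subtype.val_injective, ?_⟩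
  rw [e]
  exact ⟨h.disc, h.covol⟩

end Vale.Agent.P092.H759
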